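import Crest.Agent.R316.Num.PolyNu

/-!
# R316 / Num / Growth : growth calculus (helper251)

`PB q F` polynomially bounded, `EB q F` exponentially bounded, `DB q F` doubly exponentially
bounded functions of the size `q i`; `UB q P` : the family `P i ∈ R i` is in the size class
`Bd (2^2^A(q)) (2^A(q))` for one polynomial `A`.
-/

set_option autoImplicit false

namespace Crest.Agent.R316

open MvPolynomial

section growth
variable {ι : Type*} {q : ι → ℕ}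

/-- polynomially bounded -/
def PB (q : ι → ℕ) (F : ι → ℕ) : Prop := ∃ P : Polynomial ℕ, ∀ i, F i ≤ P.eval (q i)
/-- exponentially bounded -/
def EB (q : ι → ℕ) (F : ι → ℕ) : Prop := ∃ P : Polynomial ℕ, ∀ i, F i ≤ 2 ^ P.eval (q i)
/-- doubly exponentially bounded -/
def DB (q : ι → ℕ) (F : ι → ℝ) : Prop := ∃ P : Polynomial ℕ, ∀ i, F i ≤ 2 ^ 2 ^ P.eval (q i)

/-! #### PB -/

theorem PB.mono {F G : ι → ℕ} (h : PB q G) (hFG : ∀ i, F i ≤ G i) : PB q F := by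
  obtain ⟨P, hP⟩ := h
  exact ⟨P, fun i => (hFG i).trans (hP i)⟩

theorem PB.const (k : ℕ) : PB q (fun _ => k) := ⟨Polynomial.C k, fun i => by simp⟩

theorem PB.id : PB q q := ⟨Polynomial.X, fun i => by simp⟩

theorem PB.eval (P : Polynomial ℕ) : PB q (fun i => P.eval (q i)) := ⟨P, fun _ => le_rfl⟩

theorem PB.add {F G : ι → ℕ} (h : PB q F) (h' : PB q G) : PB q (fun i => F i + G i) := by
  obtain ⟨P, hP⟩ := h
  obtain ⟨Q, hQ⟩ := h'
  exact ⟨P + Q, fun i => by rw [Polynomial.eval_add]; exact add_le_add (hP i) (hQ i)⟩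

theorem PB.mul {F G : ι → ℕ} (h : PB q F) (h' : PB q G) : PB q (fun i => F i * G i) := by
  obtain ⟨P, hP⟩ := h
  obtain ⟨Q, hQ⟩ := h'
  exact ⟨P * Q, fun i => by rw [Polynomial.eval_mul]; exact Nat.mul_le_mul (hP i) (hQ i)⟩

theorem PB.comp {κ : Type*} {F : ι → ℕ} (h : PB q F) (π : κ → ι) :
    PB (fun k => q (π k)) (fun k => F (π k)) := by
  obtain ⟨P, hP⟩ := h
  exact ⟨P, fun k => hP (π k)⟩

/-! #### EB -/

theorem EB.mono {F G : ι → ℕ} (h : EB q G) (hFG : ∀ i, F i ≤ G i) : EB q F := by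
  obtain ⟨P, hP⟩ := h
  exact ⟨P, fun i => (hFG i).trans (hP i)⟩

theorem PB.eb {F : ι → ℕ} (h : PB q F) : EB q F := by
  obtain ⟨P, hP⟩ := h
  exact ⟨P, fun i => (hP i).trans Nat.lt_two_pow_self.le⟩

theorem PB.two_pow {F : ι → ℕ} (h : PB q F) : EB q (fun i => 2 ^ F i) := by
  obtain ⟨P, hP⟩ := h
  exact ⟨P, fun i => Nat.pow_le_pow_right (by norm_num) (hP i)⟩

theorem EB.const (k : ℕ) : EB q (fun _ => k) := (PB.const k).eb

theorem EB.add {F G : ι → ℕ} (h : EB q F) (h' : EB q G) : EB q (fun i => F i + G i) := by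
  obtain ⟨P, hP⟩ := h
  obtain ⟨Q, hQ⟩ := h'
  refine ⟨P + Q + 1, fun i => ?_⟩
  simp only [Polynomial.eval_add, Polynomial.eval_one]
  have h1 : 2 ^ P.eval (q i) ≤ 2 ^ (P.eval (q i) + Q.eval (q i)) :=
    Nat.pow_le_pow_right (by norm_num) (by omega)
  have h2 : 2 ^ Q.eval (q i) ≤ 2 ^ (P.eval (q i) + Q.eval (q i)) :=
    Nat.pow_le_pow_right (by norm_num) (by omega)
  have := hP i
  have := hQ i
  rw [pow_succ]
  omega

theorem EB.mul {F G : ι → ℕ} (h : EB q F) (h' : EB q G) : EB q (fun i => F i * G i) := by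
  obtain ⟨P, hP⟩ := h
  obtain ⟨Q, hQ⟩ := h'
  refine ⟨P + Q, fun i => ?_⟩
  simp only [Polynomial.eval_add, pow_add]
  exact Nat.mul_le_mul (hP i) (hQ i)

theorem EB.pow {F G : ι → ℕ} (h : EB q F) (h' : PB q G) : EB q (fun i => F i ^ G i) := by
  obtain ⟨P, hP⟩ := h
  obtain ⟨Q, hQ⟩ := h'
  refine ⟨P * Q, fun i => ?_⟩
  simp only [Polynomial.eval_mul, pow_mul]
  calc F i ^ G i ≤ (2 ^ P.eval (q i)) ^ G i := Nat.pow_le_pow_left (hP i) _
    _ ≤ (2 ^ P.eval (q i)) ^ Q.eval (q i) :=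
      Nat.pow_le_pow_right (Nat.pow_pos (by norm_num)) (hQ i)

theorem EB.comp {κ : Type*} {F : ι → ℕ} (h : EB q F) (π : κ → ι) :
    EB (fun k => q (π k)) (fun k => F (π k)) := by
  obtain ⟨P, hP⟩ := h
  exact ⟨P, fun k => hP (π k)⟩

/-! #### DB -/

theorem one_le_dexp (k : ℕ) : (1 : ℝ) ≤ 2 ^ 2 ^ k := one_le_pow₀ (by norm_num)

theorem two_le_dexp (k : ℕ) : (2 : ℝ) ≤ 2 ^ 2 ^ k := by
  calc (2 : ℝ) = 2 ^ 1 := by norm_num
    _ ≤ 2 ^ 2 ^ k := pow_le_pow_right₀ (by norm_num) Nat.one_le_two_pow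

theorem dexp_mono {a b : ℕ} (h : a ≤ b) : (2 : ℝ) ^ 2 ^ a ≤ 2 ^ 2 ^ b :=
  pow_le_pow_right₀ (by norm_num) (Nat.pow_le_pow_right (by norm_num) h)

theorem dexp_mul_le (a b : ℕ) : (2 : ℝ) ^ 2 ^ a * 2 ^ 2 ^ b ≤ 2 ^ 2 ^ (a + b + 1) := by
  rw [← pow_add]
  refine pow_le_pow_right₀ (by norm_num) ?_
  have h1 : 2 ^ a ≤ 2 ^ (a + b) := Nat.pow_le_pow_right (by norm_num) (by omega)
  have h2 : 2 ^ b ≤ 2 ^ (a + b) := Nat.pow_le_pow_right (by norm_num) (by omega)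
  rw [pow_succ]
  omega

theorem dexp_add_le (a b : ℕ) : (2 : ℝ) ^ 2 ^ a + 2 ^ 2 ^ b ≤ 2 ^ 2 ^ (a + b + 1) := by
  refine le_trans ?_ (dexp_mul_le a b)
  have h1 := two_le_dexp a
  have h2 := two_le_dexp b
  nlinarith

theorem DB.mono {F G : ι → ℝ} (h : DB q G) (hFG : ∀ i, F i ≤ G i) : DB q F := by
  obtain ⟨P, hP⟩ := h
  exact ⟨P, fun i => (hFG i).trans (hP i)⟩

theorem EB.two_pow {F : ι → ℕ} (h : EB q F) : DB q (fun i => 2 ^ F i) := by
  obtain ⟨P, hP⟩ := h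
  exact ⟨P, fun i => pow_le_pow_right₀ (by norm_num) (hP i)⟩

theorem EB.db {F : ι → ℕ} (h : EB q F) : DB q (fun i => (F i : ℝ)) := by
  refine h.two_pow.mono fun i => ?_
  exact_mod_cast (Nat.lt_two_pow_self (n := F i)).le

theorem DB.const (c : ℝ) : DB q (fun _ => c) := by
  refine (EB.const ⌈c⌉₊).db.mono fun i => Nat.le_ceil c

theorem DB.add {F G : ι → ℝ} (h : DB q F) (h' : DB q G) : DB q (fun i => F i + G i) := by
  obtain ⟨P, hP⟩ := h
  obtain ⟨Q, hQ⟩ := h'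
  refine ⟨P + Q + 1, fun i => ?_⟩
  simp only [Polynomial.eval_add, Polynomial.eval_one]
  exact (add_le_add (hP i) (hQ i)).trans (dexp_add_le _ _)

theorem DB.mul {F G : ι → ℝ} (h : DB q F) (h' : DB q G) (hF : ∀ i, 0 ≤ F i)
    (hG : ∀ i, 0 ≤ G i) : DB q (fun i => F i * G i) := by
  obtain ⟨P, hP⟩ := h
  obtain ⟨Q, hQ⟩ := h'
  refine ⟨P + Q + 1, fun i => ?_⟩
  simp only [Polynomial.eval_add, Polynomial.eval_one]
  exact (mul_le_mul (hP i) (hQ i) (hG i) (by positivity)).trans (dexp_mul_le _ _)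

theorem DB.pow {F : ι → ℝ} {G : ι → ℕ} (h : DB q F) (h' : EB q G) (hF : ∀ i, 0 ≤ F i) :
    DB q (fun i => F i ^ G i) := by
  obtain ⟨P, hP⟩ := h
  obtain ⟨Q, hQ⟩ := h'
  refine ⟨P + Q, fun i => ?_⟩
  simp only [Polynomial.eval_add, pow_add, pow_mul]
  calc F i ^ G i ≤ (2 ^ 2 ^ P.eval (q i)) ^ G i := pow_le_pow_left₀ (hF i) (hP i) _
    _ ≤ (2 ^ 2 ^ P.eval (q i)) ^ 2 ^ Q.eval (q i) := pow_le_pow_right₀ (one_le_dexp _) (hQ i)

theorem DB.comp {κ : Type*} {F : ι → ℝ} (h : DB q F) (π : κ → ι) :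
    DB (fun k => q (π k)) (fun k => F (π k)) := by
  obtain ⟨P, hP⟩ := h
  exact ⟨P, fun k => hP (π k)⟩

end growth

/-! ### uniform size classes -/

section ub
variable {ι : Type*} {q : ι → ℕ} {R : ι → Type*} [∀ i, CommRing (R i)] [∀ i, HasNu (R i)]

/-- uniform size class -/
def UB (q : ι → ℕ) (P : ∀ i, R i) : Prop :=
  ∃ A : Polynomial ℕ, ∀ i, Bd (P i) (2 ^ 2 ^ A.eval (q i)) (2 ^ A.eval (q i))

theorem UB.mk {P : ∀ i, R i} {c : ι → ℝ} {E : ι → ℕ} (hc : DB q c) (hE : EB q E)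
    (h : ∀ i, Bd (P i) (c i) (E i)) : UB q P := by
  obtain ⟨C, hC⟩ := hc
  obtain ⟨D, hD⟩ := hE
  refine ⟨C + D, fun i => ?_⟩
  simp only [Polynomial.eval_add]
  refine (h i).mono ((hC i).trans (dexp_mono (by omega))) (by positivity)
    ((hD i).trans (Nat.pow_le_pow_right (by norm_num) (by omega)))

theorem UB.bd {P : ∀ i, R i} (h : UB q P) : ∃ (c : ι → ℝ) (E : ι → ℕ), DB q c ∧ EB q E ∧
    (∀ i, 1 ≤ c i) ∧ ∀ i, Bd (P i) (c i) (E i) := by
  obtain ⟨A, hA⟩ := h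
  exact ⟨_, _, ⟨A, fun i => le_rfl⟩, ⟨A, fun i => le_rfl⟩, fun i => one_le_dexp _, hA⟩

theorem UB.comp {κ : Type*} {P : ∀ i, R i} (h : UB q P) (π : κ → ι) :
    UB (fun k => q (π k)) (fun k => P (π k)) := by
  obtain ⟨A, hA⟩ := h
  exact ⟨A, fun k => hA (π k)⟩

theorem UB.congr {P Q : ∀ i, R i} (h : UB q P) (hPQ : ∀ i, Q i = P i) : UB q Q := by
  obtain ⟨A, hA⟩ := h
  exact ⟨A, fun i => by rw [hPQ]; exact hA i⟩

theorem UB.add {P Q : ∀ i, R i} (h : UB q P) (h' : UB q Q) : UB q (fun i => P i + Q i) := by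
  obtain ⟨c, E, hc, hE, _, hP⟩ := h.bd
  obtain ⟨c', E', hc', hE', _, hQ⟩ := h'.bd
  exact UB.mk (hc.add hc') ((hE.add hE').mono fun i => by simp) fun i =>
    (hP i).add (hQ i)

theorem UB.neg {P : ∀ i, R i} (h : UB q P) : UB q (fun i => -P i) := by
  obtain ⟨A, hA⟩ := h
  exact ⟨A, fun i => (hA i).neg⟩

theorem UB.sub {P Q : ∀ i, R i} (h : UB q P) (h' : UB q Q) : UB q (fun i => P i - Q i) := by
  simp only [sub_eq_add_neg]
  exact h.add h'.neg

theorem UB.mul {P Q : ∀ i, R i} (h : UB q P) (h' : UB q Q) : UB q (fun i => P i * Q i) := by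
  obtain ⟨c, E, hc, hE, _, hP⟩ := h.bd
  obtain ⟨c', E', hc', hE', _, hQ⟩ := h'.bd
  exact UB.mk (hc.mul hc' (fun i => (hP i).nonneg) fun i => (hQ i).nonneg) (hE.add hE') fun i =>
    (hP i).mul (hQ i)

theorem UB.pow {P : ∀ i, R i} (h : UB q P) {k : ι → ℕ} (hk : EB q k) :
    UB q (fun i => P i ^ k i) := by
  obtain ⟨c, E, hc, hE, _, hP⟩ := h.bd
  exact UB.mk (hc.pow hk fun i => (hP i).nonneg) (hE.mul hk) fun i => (hP i).pow _

theorem UB.one : UB q (fun i => (1 : R i)) :=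
  UB.mk (DB.const 1) (EB.const 0) fun _ => bd_one

theorem UB.zero : UB q (fun i => (0 : R i)) :=
  UB.mk (DB.const 0) (EB.const 0) fun _ => bd_zero le_rfl 0

theorem UB.natCast {a : ι → ℕ} (ha : DB q fun i => (a i : ℝ)) : UB q (fun i => (a i : R i)) :=
  UB.mk ha (EB.const 0) fun _ => bd_natCast _

theorem UB.intCast {a : ι → ℤ} (ha : DB q fun i => |(a i : ℝ)|) : UB q (fun i => (a i : R i)) :=
  UB.mk ha (EB.const 0) fun _ => bd_intCast _

theorem UB.ofNat (a : ℕ) [a.AtLeastTwo] : UB q (fun i => (OfNat.ofNat a : R i)) :=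
  (UB.natCast (R := R) (a := fun _ => a) (DB.const a)).congr fun _ =>
    (Nat.cast_ofNat (n := a)).symm

/-- sums over exponentially many indices; the uniform bound of the family is given over the sigma
type -/
theorem UB.sum {κ : ι → Type*} {s : ∀ i, Finset (κ i)} {P : ∀ i, κ i → R i}
    (h : UB (fun x : Σ i, κ i => q x.1) (fun x => P x.1 x.2)) (hs : EB q fun i => (s i).card) :
    UB q (fun i => ∑ j ∈ s i, P i j) := by
  obtain ⟨A, hA⟩ := h
  refine UB.mk (c := fun i => (s i).card * 2 ^ 2 ^ A.eval (q i)) (E := fun i => 2 ^ A.eval (q i))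
    (hs.db.mul ⟨A, fun i => le_rfl⟩ (fun i => Nat.cast_nonneg _) fun i => by positivity)
    ⟨A, fun i => le_rfl⟩ fun i => ?_
  exact Bd.sum (s i) (by positivity) fun j _ => hA ⟨i, j⟩

/-- products over exponentially many indices -/
theorem UB.prod {κ : ι → Type*} {s : ∀ i, Finset (κ i)} {P : ∀ i, κ i → R i}
    (h : UB (fun x : Σ i, κ i => q x.1) (fun x => P x.1 x.2)) (hs : EB q fun i => (s i).card) :
    UB q (fun i => ∏ j ∈ s i, P i j) := by
  obtain ⟨A, hA⟩ := h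
  refine UB.mk (c := fun i => (2 ^ 2 ^ A.eval (q i)) ^ (s i).card)
    (E := fun i => 2 ^ A.eval (q i) * (s i).card)
    (DB.pow ⟨A, fun i => le_rfl⟩ hs fun i => by positivity)
    (EB.mul ⟨A, fun i => le_rfl⟩ hs) fun i => ?_
  exact Bd.prod (s i) fun j _ => hA ⟨i, j⟩

/-! polynomial rings -/

variable {σ : ι → Type*}

theorem UB.C {P : ∀ i, R i} (h : UB q P) :
    UB q (fun i => (MvPolynomial.C (P i) : MvPolynomial (σ i) (R i))) := by
  obtain ⟨A, hA⟩ := h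
  exact ⟨A, fun i => (hA i).C⟩

theorem UB.X (j : ∀ i, σ i) : UB q (fun i => (MvPolynomial.X (j i) : MvPolynomial (σ i) (R i))) :=
  UB.mk (DB.const 1) (EB.const 1) fun _ => bd_X _

theorem UB.coeff {P : ∀ i, MvPolynomial (σ i) (R i)} (h : UB q P) (s : ∀ i, σ i →₀ ℕ) :
    UB q (fun i => (P i).coeff (s i)) := by
  obtain ⟨A, hA⟩ := h
  exact ⟨A, fun i => (hA i).coeff _⟩

end ub

/-- rings in which nonzero elements have size at least `1` -/
class GoodNu (R : Type*) [CommRing R] [HasNu R] : Prop where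
  one_le : ∀ a : R, a ≠ 0 → ∀ ρ : ℝ, 1 ≤ ρ → 1 ≤ HasNu.nu ρ a

instance : GoodNu ℤ := ⟨fun a ha ρ _ => one_le_nu_int a ha ρ⟩

instance {σ : Type*} {R : Type*} [CommRing R] [HasNu R] [GoodNu R] :
    GoodNu (MvPolynomial σ R) := ⟨one_le_nu_mvPolynomial GoodNu.one_le⟩

theorem Bd.totalDegree_le' {σ : Type*} {R : Type*} [CommRing R] [HasNu R] [GoodNu R]
    {P : MvPolynomial σ R} {c : ℝ} {E : ℕ} (h : Bd P c E) : P.totalDegree ≤ E :=
  totalDegree_le_of_nu GoodNu.one_le h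

section ub2
variable {ι : Type*} {q : ι → ℕ} {R : ι → Type*} [∀ i, CommRing (R i)] [∀ i, HasNu (R i)]
  [∀ i, GoodNu (R i)] {σ : ι → Type*}

theorem UB.totalDegree {P : ∀ i, MvPolynomial (σ i) (R i)} (h : UB q P) :
    EB q (fun i => (P i).totalDegree) := by
  obtain ⟨A, hA⟩ := h
  exact ⟨A, fun i => (hA i).totalDegree_le'⟩

theorem UB.pderiv {P : ∀ i, MvPolynomial (σ i) (R i)} (h : UB q P) (j : ∀ i, σ i) :
    UB q (fun i => MvPolynomial.pderiv (j i) (P i)) := by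
  obtain ⟨c, E, hc, hE, _, hP⟩ := h.bd
  exact UB.mk (hE.db.mul hc (fun i => Nat.cast_nonneg _) fun i => (hP i).nonneg) hE fun i =>
    (hP i).pderiv (hP i).totalDegree_le' _

variable {n m : ι → ℕ} {g : ∀ i, Fin (n i) → MvPolynomial (Fin (n i)) (R i)}

/-- norms -/
theorem UB.mnorm (hn : PB q n) (hm : EB q m) (hg : ∀ i j, (g i j).totalDegree < m i)
    (hgU : UB (fun x : Σ i, Fin (n i) => q x.1) (fun x => g x.1 x.2))
    {G : ∀ i, MvPolynomial (Fin (n i)) (R i)} (hG : UB q G) :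
    UB q (fun i => mnorm (m i) (g i) (G i)) := by
  obtain ⟨A, hA⟩ := hgU
  obtain ⟨c, E, hc, hE, hc1, hP⟩ := hG.bd
  have hmn : EB q (fun i => m i ^ n i) := hm.pow hn
  have hdeg : EB q (fun i => E i + n i * m i) := hE.add (hn.eb.mul hm)
  have hA1 : DB q (fun i => (2 : ℝ) ^ 2 ^ A.eval (q i)) := ⟨A, fun i => le_rfl⟩
  have hA2 : EB q (fun i => 2 ^ A.eval (q i)) := ⟨A, fun i => le_rfl⟩
  refine UB.mk
    (c := fun i => (c i * (2 ^ 2 ^ A.eval (q i)) ^ (E i + n i * m i)) ^ (m i ^ n i))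
    (E := fun i => (E i + 2 ^ A.eval (q i) * (E i + n i * m i)) * m i ^ n i)
    (DB.pow (hc.mul (hA1.pow hdeg fun i => by positivity) (fun i => by linarith [hc1 i])
      fun i => by positivity) hmn fun i => mul_nonneg (by linarith [hc1 i]) (by positivity))
    ((hE.add (hA2.mul hdeg)).mul hmn) fun i => ?_
  have hc0 : 0 ≤ c i := by linarith [hc1 i]
  have hd : (G i).totalDegree ≤ E i := (hP i).totalDegree_le'
  have hAi : ∀ j, Bd (g i j) (2 ^ 2 ^ A.eval (q i)) (2 ^ A.eval (q i)) := fun j => hA ⟨i, j⟩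
  refine (Bd.mnorm (hg i) (one_le_dexp _) hAi (hP i)).mono ?_ ?_ ?_
  · refine pow_le_pow_left₀ (by positivity) ?_ _
    refine mul_le_mul_of_nonneg_left ?_ hc0
    exact pow_le_pow_right₀ (one_le_dexp _) (by omega)
  · positivity
  · refine Nat.mul_le_mul_right _ ?_
    refine Nat.add_le_add_left (Nat.mul_le_mul_left _ (by omega)) _

omit [∀ i, GoodNu (R i)] in
/-- Thom polynomials -/
theorem UB.mthom [∀ i, Nontrivial (R i)] (hn : PB q n) (hm : EB q m)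
    (hg : ∀ i j, (g i j).totalDegree < m i)
    (hgU : UB (fun x : Σ i, Fin (n i) => q x.1) (fun x => g x.1 x.2))
    (j : ∀ i, Fin (n i)) (l : ι → ℕ) :
    UB q (fun i => mthom (m i) (g i) (j i) (l i)) := by
  obtain ⟨A, hA⟩ := hgU
  have hmn : EB q (fun i => m i ^ n i) := hm.pow hn
  have hdeg : EB q (fun i => 1 + n i * m i) := (EB.const 1).add (hn.eb.mul hm)
  have hA1 : DB q (fun i => (2 : ℝ) ^ 2 ^ A.eval (q i)) := ⟨A, fun i => le_rfl⟩
  have hA2 : EB q (fun i => 2 ^ A.eval (q i)) := ⟨A, fun i => le_rfl⟩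
  refine UB.mk
    (c := fun i => 2 ^ (m i ^ n i) * (2 * (2 ^ 2 ^ A.eval (q i)) ^ (1 + n i * m i)) ^ (m i ^ n i))
    (E := fun i => (2 + 2 ^ A.eval (q i) * (1 + n i * m i)) * m i ^ n i)
    (hmn.two_pow.mul (DB.pow ((DB.const 2).mul (hA1.pow hdeg fun i => by positivity)
      (fun i => by norm_num) fun i => by positivity) hmn fun i => by positivity)
      (fun i => by positivity) fun i => by positivity)
    (((EB.const 2).add (hA2.mul hdeg)).mul hmn) fun i => ?_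
  have hAi : ∀ j, Bd (g i j) (2 ^ 2 ^ A.eval (q i)) (2 ^ A.eval (q i)) := fun j => hA ⟨i, j⟩
  exact Bd.mthom (hg i) (one_le_dexp _) hAi (j i) (l i)

end ub2

section test
variable {ι : Type*} {q : ι → ℕ} {R : ι → Type*} [∀ i, CommRing (R i)] [∀ i, HasNu (R i)]

/-- the test polynomial -/
theorem UB.testPoly {K e N v D c₀ W : ι → ℕ} {w : ∀ i, ℕ → ℕ} {G : ∀ i, ℕ → R i}
    (hG : UB (fun x : ι × ℕ => q x.1) (fun x => G x.1 x.2))
    (hK : EB q K) (he : EB q e) (hN : EB q N) (hD : EB q D) (hc₀ : EB q c₀) (hW : EB q W)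
    (hw : ∀ i, ∑ k ∈ Finset.range (N i), w i k ≤ W i) (hv : ∀ i, v i ≤ W i) :
    UB q (fun i => testPoly (K i) (e i) (N i) (w i) (v i) (D i) (c₀ i) (G i)) := by
  obtain ⟨A, hA⟩ := hG
  have hA1 : DB q (fun i => (2 : ℝ) ^ 2 ^ A.eval (q i)) := ⟨A, fun i => le_rfl⟩
  have hA2 : EB q (fun i => 2 ^ A.eval (q i)) := ⟨A, fun i => le_rfl⟩
  have h1 : EB q (fun i => e i * (K i + 1)) := he.mul (hK.add (EB.const 1))
  have h2 : DB q (fun i => ((2 : ℝ) ^ 2 ^ A.eval (q i) + 2 ^ K i) ^ (e i * (K i + 1))) :=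
    (hA1.add hK.two_pow).pow h1 fun i => by positivity
  have h3 : DB q (fun i => (2 * ((2 : ℝ) ^ 2 ^ A.eval (q i) + 2 ^ K i) ^ (e i * (K i + 1))) ^ N i) :=
    ((DB.const 2).mul h2 (fun i => by norm_num) fun i => by positivity).pow hN
      fun i => by positivity
  have h4 : DB q (fun i => 2 * ((W i : ℝ) + 1)) :=
    (DB.const 2).mul (hW.db.add (DB.const 1)) (fun i => by norm_num) fun i => by positivity
  have h5 := (h4.mul h3 (fun i => by positivity) fun i => by positivity).pow (EB.const 2)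
    fun i => by positivity
  have h6 : DB q (fun i => ((D i : ℝ) + 1) * 18) :=
    (hD.db.add (DB.const 1)).mul (DB.const 18) (fun i => by positivity) fun i => by norm_num
  refine UB.mk
    (c := fun i => ((D i : ℝ) + 1) * 18 * (2 * ((W i : ℝ) + 1) *
      (2 * ((2 : ℝ) ^ 2 ^ A.eval (q i) + 2 ^ K i) ^ (e i * (K i + 1))) ^ N i) ^ 2 + c₀ i)
    (E := fun i => 2 ^ A.eval (q i) * (e i * (K i + 1)) * N i * 2)
    ((h6.mul h5 (fun i => by positivity) fun i => by positivity).add hc₀.db)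
    (((hA2.mul h1).mul hN).mul (EB.const 2)) fun i => ?_
  exact Bd.testPoly (one_le_dexp _) (hw i) (hv i) fun k _ => hA (i, k)

end test

end Crest.Agent.R316
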