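import Crest.Agent.R316.Num.ParamsDefs
import Crest.Agent.R316.Num.Growth

/-!
# R316 / Num / DegIn  (task C11a) : degree bounds of the inner polynomials

General degree estimates: `totalDegree_mjac_le`, `totalDegree_mthom_le`, `totalDegree_testPoly_le`,
`totalDegree_seedPolyS_le`; conclusion `exists_inner_degree_bound`.
-/

set_option autoImplicit false

namespace Crest.Agent.R316

open MvPolynomial

section general

variable {R : Type*} [CommRing R] {n m : ℕ} {g : Fin n → MvPolynomial (Fin n) R}

theorem totalDegree_X_le {σ : Type*} (i : σ) : (X i : MvPolynomial σ R).totalDegree ≤ 1 := by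
  rcases subsingleton_or_nontrivial R with hR | hR
  · have : (X i : MvPolynomial σ R) = 0 := Subsingleton.elim _ _
    rw [this]; simp
  · rw [totalDegree_X]

theorem totalDegree_det_le {ι σ : Type*} [Fintype ι] [DecidableEq ι]
    (M : Matrix ι ι (MvPolynomial σ R)) {d : ℕ} (h : ∀ i j, (M i j).totalDegree ≤ d) :
    M.det.totalDegree ≤ Fintype.card ι * d := by
  rw [Matrix.det_apply]
  refine (totalDegree_finsetSum _ _).trans (Finset.sup_le fun s _ => ?_)
  have h1 : (Equiv.Perm.sign s • ∏ i, M (s i) i).totalDegree ≤ (∏ i, M (s i) i).totalDegree := by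
    rcases Int.units_eq_one_or (Equiv.Perm.sign s) with h | h
    · rw [h, one_smul]
    · rw [h, Units.neg_smul, one_smul, totalDegree_neg]
  refine h1.trans ((totalDegree_finsetProd _ _).trans ?_)
  refine (Finset.sum_le_sum fun i _ => h (s i) i).trans ?_
  simp

theorem totalDegree_mjac_le (hg : ∀ i, (g i).totalDegree < m) :
    (mjac m g).totalDegree ≤ n * m := by
  unfold mjac
  have h := totalDegree_det_le (Matrix.of fun i j => pderiv j (X i ^ m - g i)) (d := m) (by
    intro i j
    rw [Matrix.of_apply]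
    refine (totalDegree_pderiv_le j _).trans ((totalDegree_sub _ _).trans (max_le ?_ (hg i).le))
    refine (totalDegree_pow _ _).trans ?_
    have := totalDegree_X_le (R := R) i
    calc m * (X i : MvPolynomial (Fin n) R).totalDegree ≤ m * 1 := Nat.mul_le_mul_left _ this
      _ = m := mul_one m)
  simpa using h

theorem natDegree_mcp_le (hg : ∀ i, (g i).totalDegree < m) (G : MvPolynomial (Fin n) R) :
    (mcp m g G).natDegree ≤ m ^ n := by
  rcases subsingleton_or_nontrivial R with hR | hR
  · have : mcp m g G = 0 := Subsingleton.elim _ _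
    rw [this]; simp
  · exact (mcp_natDegree hg G).le

theorem totalDegree_aeval_X_le (i : Fin n) (p : Polynomial R) :
    (Polynomial.aeval (X i : MvPolynomial (Fin n) R) p).totalDegree ≤ p.natDegree := by
  rw [Polynomial.aeval_eq_sum_range]
  refine (totalDegree_finsetSum _ _).trans (Finset.sup_le fun k hk => ?_)
  refine (totalDegree_smul_le _ _).trans ((totalDegree_pow _ _).trans ?_)
  have h1 := totalDegree_X_le (R := R) i
  have h2 : k ≤ p.natDegree := by simpa [Nat.lt_succ_iff] using hk
  calc k * (X i : MvPolynomial (Fin n) R).totalDegree ≤ k * 1 := Nat.mul_le_mul_left _ h1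
    _ = k := mul_one k
    _ ≤ _ := h2

theorem totalDegree_mthom_le (hg : ∀ i, (g i).totalDegree < m) (i : Fin n) (l : ℕ) :
    (mthom m g i l).totalDegree ≤ m ^ n := by
  unfold mthom
  refine (totalDegree_aeval_X_le i _).trans ?_
  refine (Polynomial.natDegree_hasseDeriv_le _ _).trans ?_
  have : (mchi m g i).natDegree ≤ m ^ n := natDegree_mcp_le hg _
  omega

variable {σ : Type*}

theorem totalDegree_natCast (a : ℕ) : (a : MvPolynomial σ R).totalDegree = 0 := by
  rw [← map_natCast (C : R →+* MvPolynomial σ R)]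
  exact totalDegree_C _

theorem totalDegree_sgP_le (K e : ℕ) {t : MvPolynomial σ R} {d : ℕ} (h : t.totalDegree ≤ d) :
    (sgP K e t).totalDegree ≤ (K + 1) * (e * d) := by
  unfold sgP
  refine (totalDegree_finsetProd _ _).trans ?_
  refine (Finset.sum_le_sum (g := fun _ => e * d) fun k _ => ?_).trans (by simp)
  refine (totalDegree_pow _ _).trans (Nat.mul_le_mul_left _ ?_)
  refine (totalDegree_add _ _).trans (max_le h ?_)
  have : ((2 : MvPolynomial σ R) ^ k).totalDegree = 0 := by
    have h2 : ((2 : MvPolynomial σ R) ^ k) = ((2 ^ k : ℕ) : MvPolynomial σ R) := by push_cast; rfl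
    rw [h2, totalDegree_natCast]
  omega

theorem totalDegree_sgQ_le (K e : ℕ) {t : MvPolynomial σ R} {d : ℕ} (h : t.totalDegree ≤ d) :
    (sgQ K e t).totalDegree ≤ (K + 1) * (e * d) := by
  unfold sgQ
  exact (totalDegree_add _ _).trans (max_le (totalDegree_sgP_le K e h)
    (totalDegree_sgP_le K e (by rw [totalDegree_neg]; exact h)))

theorem totalDegree_testDen_le (K e N : ℕ) {G : ℕ → MvPolynomial σ R} {d : ℕ}
    (h : ∀ j < N, (G j).totalDegree ≤ d) :
    (testDen K e N G).totalDegree ≤ N * ((K + 1) * (e * d)) := by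
  unfold testDen
  refine (totalDegree_finsetProd _ _).trans ?_
  refine (Finset.sum_le_sum (g := fun _ => (K + 1) * (e * d)) fun k hk => ?_).trans (by simp)
  exact totalDegree_sgQ_le K e (h k (Finset.mem_range.1 hk))

theorem totalDegree_testNum_le (K e N : ℕ) (w : ℕ → ℕ) (v : ℕ) {G : ℕ → MvPolynomial σ R} {d : ℕ}
    (h : ∀ j < N, (G j).totalDegree ≤ d) :
    (testNum K e N w v G).totalDegree ≤ (N + 1) * ((K + 1) * (e * d)) := by
  unfold testNum
  set D := (K + 1) * (e * d) with hD
  have h0 : N * D ≤ (N + 1) * D := Nat.mul_le_mul_right _ (by omega)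
  refine (totalDegree_sub _ _).trans (max_le ?_ ?_)
  · refine (totalDegree_finsetSum _ _).trans (Finset.sup_le fun k hk => ?_)
    have hk' := Finset.mem_range.1 hk
    refine (totalDegree_mul _ _).trans ?_
    have h1 : ((w k : MvPolynomial σ R) * sgP K e (-(G k))).totalDegree ≤ D := by
      refine (totalDegree_mul _ _).trans ?_
      rw [totalDegree_natCast, zero_add]
      exact totalDegree_sgP_le K e (by rw [totalDegree_neg]; exact h k hk')
    have h2 : (∏ j ∈ (Finset.range N).erase k, sgQ K e (G j)).totalDegree ≤ N * D := by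
      refine (totalDegree_finsetProd _ _).trans ?_
      refine (Finset.sum_le_sum (g := fun _ => D) fun j hj => ?_).trans ?_
      · exact totalDegree_sgQ_le K e (h j (Finset.mem_range.1 (Finset.mem_of_mem_erase hj)))
      · rw [Finset.sum_const, smul_eq_mul]
        refine Nat.mul_le_mul_right _ ?_
        refine (Finset.card_erase_le).trans ?_
        simp
    calc _ ≤ D + N * D := Nat.add_le_add h1 h2
      _ = (N + 1) * D := by ring
  · refine (totalDegree_mul _ _).trans ?_
    rw [totalDegree_natCast, zero_add]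
    exact (totalDegree_testDen_le K e N h).trans h0

theorem totalDegree_testPoly_le (K e N : ℕ) (w : ℕ → ℕ) (v D c : ℕ) {G : ℕ → MvPolynomial σ R}
    {d : ℕ} (h : ∀ j < N, (G j).totalDegree ≤ d) :
    (testPoly K e N w v D c G).totalDegree ≤ 2 * ((N + 1) * ((K + 1) * (e * d))) := by
  unfold testPoly
  set B := (N + 1) * ((K + 1) * (e * d)) with hB
  have h1 := totalDegree_testNum_le K e N w v h
  have h2 : (testDen K e N G).totalDegree ≤ B :=
    (totalDegree_testDen_le K e N h).trans (Nat.mul_le_mul_right _ (by omega))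
  refine (totalDegree_add _ _).trans (max_le ?_ (by rw [totalDegree_natCast]; omega))
  refine (totalDegree_mul _ _).trans ?_
  have h3 : ((D : MvPolynomial σ R) + 1).totalDegree = 0 := by
    have : ((D : MvPolynomial σ R) + 1) = ((D + 1 : ℕ) : MvPolynomial σ R) := by push_cast; rfl
    rw [this, totalDegree_natCast]
  rw [h3, zero_add]
  refine (totalDegree_sub _ _).trans (max_le ?_ ?_)
  · refine (totalDegree_mul _ _).trans ?_
    have h4 : (16 : MvPolynomial σ R).totalDegree = 0 := by
      have := totalDegree_natCast (R := R) (σ := σ) 16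
      simpa using this
    rw [h4, zero_add]
    exact (totalDegree_pow _ _).trans (Nat.mul_le_mul_left _ h1)
  · refine (totalDegree_mul _ _).trans ?_
    have h4 : (2 : MvPolynomial σ R).totalDegree = 0 := by
      have := totalDegree_natCast (R := R) (σ := σ) 2
      simpa using this
    rw [h4, zero_add]
    exact (totalDegree_pow _ _).trans (Nat.mul_le_mul_left _ h2)

theorem totalDegree_famG_le [NeZero n] (hg : ∀ i, (g i).totalDegree < m) (N1 T0 : ℕ)
    {ψ : ℕ → MvPolynomial (Fin n) R} {d : ℕ} (h : ∀ j < N1, (ψ j).totalDegree ≤ d) (k : ℕ) :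
    (famG m g N1 T0 ψ k).totalDegree ≤ d + m ^ n := by
  unfold famG
  split_ifs with h1 h2
  · exact (h k h1).trans (by omega)
  · refine (totalDegree_add _ _).trans (max_le ?_ (by simp))
    refine (totalDegree_mul _ _).trans ?_
    rw [totalDegree_natCast, zero_add]
    exact (totalDegree_mthom_le hg _ _).trans (by omega)
  · refine (totalDegree_add _ _).trans (max_le ?_ (by rw [totalDegree_neg]; simp))
    refine (totalDegree_mul _ _).trans ?_
    rw [totalDegree_natCast, zero_add]
    exact (totalDegree_mthom_le hg _ _).trans (by omega)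

/-- degree of the test polynomials -/
theorem totalDegree_seedPolyS_le [NeZero n] (hg : ∀ i, (g i).totalDegree < m) (t : TPar) (N1 : ℕ)
    {ψ : ℕ → MvPolynomial (Fin n) R} {d : ℕ} (h : ∀ j < N1, (ψ j).totalDegree ≤ d) (s : ℕ) :
    (seedPolyS m g t N1 ψ s).totalDegree ≤
      2 * ((N1 + nThom n m + 1) * ((t.K + 1) * (t.e * (d + m ^ n)))) := by
  unfold seedPolyS seedPoly
  exact totalDegree_testPoly_le _ _ _ _ _ _ _ fun j _ => totalDegree_famG_le hg N1 t.T0 h j

end general

/-! ### the inner polynomials -/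

theorem totalDegree_pen_le (A : Type*) [CommRing A] (n : ℕ) :
    (pen A n).totalDegree ≤ 2 * dI n := by
  unfold pen
  refine (totalDegree_finsetSum _ _).trans (Finset.sup_le fun j _ => ?_)
  have hX := totalDegree_X_le (R := A) j
  have h0 : 1 ≤ 2 * dI n := by unfold dI; omega
  refine (totalDegree_add _ _).trans (max_le ((totalDegree_add _ _).trans (max_le ?_ ?_)) ?_)
  · refine (totalDegree_pow _ _).trans ?_
    calc 2 * dI n * (X j : MvPolynomial (Fin n) A).totalDegree ≤ 2 * dI n * 1 :=
          Nat.mul_le_mul_left _ hX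
      _ = _ := mul_one _
  · refine (totalDegree_mul _ _).trans ?_
    rw [totalDegree_C]
    omega
  · rw [totalDegree_C]; omega

theorem totalDegree_innerH_le {A : Type*} [CommRing A] {n : ℕ} (φ : Zx n →+* A) (Γ Z : A)
    {f : Zxy n} (hf : f.totalDegree ≤ 4) : (innerH φ Γ Z f).totalDegree ≤ 2 * dI n := by
  unfold innerH
  refine (totalDegree_add _ _).trans (max_le ?_ (totalDegree_pen_le A n))
  refine (totalDegree_mul _ _).trans ?_
  rw [totalDegree_C, zero_add]
  refine (totalDegree_sub _ _).trans (max_le ?_ (by simp))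
  refine (totalDegree_mul _ _).trans ?_
  rw [totalDegree_C, zero_add]
  refine (map_fp_totalDegree_le φ hf).trans ?_
  unfold dI
  omega

theorem totalDegree_psiIn_le {A : Type*} [CommRing A] {n : ℕ} [NeZero n] (φ : Zx n →+* A)
    (Γ Z : A) (T : ℕ) {f : Zxy n} (hf : f.totalDegree ≤ 4) (k : ℕ) :
    (psiIn φ Γ Z T f k).totalDegree ≤ 2 * dI n := by
  unfold psiIn
  refine (totalDegree_sub _ _).trans (max_le ?_ (by simp))
  rw [totalDegree_neg]
  refine (totalDegree_mul _ _).trans ?_
  rw [totalDegree_natCast, zero_add]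
  exact totalDegree_innerH_le φ Γ Z hf

/-- sizes of the basic quantities -/
theorem eb_dI : EB Cfg.q (fun c => 2 * dI c.n) := by
  unfold dI
  have hn : PB Cfg.q (fun c => c.n) := PB.id.mono fun c => c.hnq
  exact (EB.const 2).mul (((EB.const 3).mul ((EB.const 5).pow hn)).add (EB.const 3))

theorem eb_mI : EB Cfg.q (fun c => mI c.n) :=
  eb_dI.mono fun c => by unfold mI; omega

theorem eb_mI_pow : EB Cfg.q (fun c => mI c.n ^ c.n) :=
  eb_mI.pow (PB.id.mono fun c => c.hnq)

/-- (C11a) degree (in `y`) of the inner polynomials, uniformly in the specialisation -/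
theorem exists_inner_degree_bound (k e t b l : Polynomial ℕ) :
    ∃ A : Polynomial ℕ, ∀ (c : Cfg) (R : Type) [CommRing R] (φ : Zx c.n →+* R) (Γ Z : R) (s : ℕ),
      (map φ (fp c.f)).totalDegree ≤ 2 ^ A.eval c.q ∧
      (innerH φ Γ Z c.f).totalDegree ≤ 2 ^ A.eval c.q ∧
      (mjac (mI c.n) (innerG φ Γ Z c.f)).totalDegree ≤ 2 ^ A.eval c.q ∧
      (∀ i j, (mthom (mI c.n) (innerG φ Γ Z c.f) i j).totalDegree ≤ 2 ^ A.eval c.q) ∧
      (seedPolyS (mI c.n) (innerG φ Γ Z c.f)
        (mkTPar (k.eval c.q) (e.eval c.q) (t.eval c.q) (b.eval c.q) (l.eval c.q)) 1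
        (psiIn φ Γ Z (2 ^ 2 ^ t.eval c.q) c.f) s).totalDegree ≤ 2 ^ A.eval c.q := by
  have hn : EB Cfg.q (fun c => c.n) := (PB.id.mono fun c => c.hnq).eb
  have hK : EB Cfg.q (fun c => 2 ^ k.eval c.q + 1) := ((PB.eval k).two_pow).add (EB.const 1)
  have he : EB Cfg.q (fun c => 2 ^ (e.eval c.q + 1)) := ((PB.eval e).add (PB.const 1)).two_pow
  have hN : EB Cfg.q (fun c => 1 + nThom c.n (mI c.n) + 1) := by
    unfold nThom
    exact ((EB.const 1).add ((EB.const 2).mul (hn.mul (eb_mI_pow.add (EB.const 1))))).add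
      (EB.const 1)
  have hF : EB Cfg.q (fun c => 2 * dI c.n + c.n * mI c.n + mI c.n ^ c.n +
      2 * ((1 + nThom c.n (mI c.n) + 1) * ((2 ^ k.eval c.q + 1) * (2 ^ (e.eval c.q + 1) *
        (2 * dI c.n + mI c.n ^ c.n))))) :=
    ((eb_dI.add (hn.mul eb_mI)).add eb_mI_pow).add
      ((EB.const 2).mul (hN.mul (hK.mul (he.mul (eb_dI.add eb_mI_pow)))))
  obtain ⟨A, hA⟩ := hF
  refine ⟨A, fun c R _ φ Γ Z s => ?_⟩
  have hc := hA c
  beta_reduce at hc
  have hg := innerG_totalDegree_lt φ Γ Z c.hf4
  refine ⟨?_, ?_, ?_, fun i j => ?_, ?_⟩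
  · have h1 := map_fp_totalDegree_le φ c.hf4
    have h2 : 6 * 5 ^ c.n + 4 ≤ 2 * dI c.n := by unfold dI; omega
    omega
  · have h1 := totalDegree_innerH_le φ Γ Z c.hf4
    omega
  · have h1 := totalDegree_mjac_le hg
    omega
  · have h1 := totalDegree_mthom_le hg i j
    omega
  · have h1 := totalDegree_seedPolyS_le hg
      (mkTPar (k.eval c.q) (e.eval c.q) (t.eval c.q) (b.eval c.q) (l.eval c.q)) 1
      (ψ := psiIn φ Γ Z (2 ^ 2 ^ t.eval c.q) c.f) (d := 2 * dI c.n)
      (fun j _ => totalDegree_psiIn_le φ Γ Z _ c.hf4 j) s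
    have h2 : (mkTPar (k.eval c.q) (e.eval c.q) (t.eval c.q) (b.eval c.q) (l.eval c.q)).K =
      2 ^ k.eval c.q := rfl
    have h3 : (mkTPar (k.eval c.q) (e.eval c.q) (t.eval c.q) (b.eval c.q) (l.eval c.q)).e =
      2 ^ (e.eval c.q + 1) := rfl
    rw [h2, h3] at h1
    omega

end Crest.Agent.R316
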