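import Crest.Agent.R316.Num.GrowthR316

/-!
# R316 / Num / DegOut (C11b): degree (in `x`) of the outer polynomials
-/

set_option autoImplicit false

namespace Crest.Agent.R316

namespace DegOut

open MvPolynomial

theorem totalDegree_det_le {R : Type*} [CommRing R] {σ : Type*} {n : ℕ}
    (M : Matrix (Fin n) (Fin n) (MvPolynomial σ R)) {d : ℕ}
    (h : ∀ i j, (M i j).totalDegree ≤ d) : M.det.totalDegree ≤ n * d := by
  classical
  rw [Matrix.det_apply']
  refine totalDegree_finsetSum_le fun τ _ => ?_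
  have h1 : (∏ i, M (τ i) i).totalDegree ≤ n * d := by
    refine (totalDegree_finsetProd _ _).trans ?_
    refine (Finset.sum_le_card_nsmul _ _ d fun i _ => h _ _).trans (le_of_eq ?_)
    simp
  rcases Int.units_eq_one_or (Equiv.Perm.sign τ) with h2 | h2
  · rw [h2]; simpa using h1
  · rw [h2]; simpa using h1

theorem totalDegree_mjac_le {R : Type*} [CommRing R] {n m d : ℕ}
    {g : Fin n → MvPolynomial (Fin n) R} (hm : m ≤ d) (hg : ∀ i, (g i).totalDegree ≤ d) :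
    (mjac m g).totalDegree ≤ n * d := by
  unfold mjac
  refine totalDegree_det_le _ fun i j => ?_
  rw [Matrix.of_apply]
  refine (totalDegree_pderiv_le _ _).trans ((totalDegree_sub _ _).trans (max_le ?_ (hg i)))
  rcases subsingleton_or_nontrivial R with h | h
  · have : (X i ^ m : MvPolynomial (Fin n) R) = 0 := Subsingleton.elim _ _
    rw [this, totalDegree_zero]
    exact Nat.zero_le _
  · rw [totalDegree_X_pow]
    exact hm

/-- the parameter point -/
noncomputable abbrev pt (u v : Polynomial ℕ) (c : Cfg) : Fin 5 → ℤ :=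
  fun i => (pnat (u.eval c.q) (v.eval c.q) i : ℤ)

/-- the outer exponent -/
noncomputable abbrev mo (a : Polynomial ℕ) (c : Cfg) : ℕ := 2 * 2 ^ (a.eval c.q + 1) - 1

section
variable (a u v : Polynomial ℕ)

theorem DB_pt (i : Fin 5) : DB Cfg.q (fun c => |(pt u v c i : ℝ)|) := by
  refine ⟨u + (i : ℕ) * (v + 2), fun c => ?_⟩
  have h1 : (u + ((i : ℕ) : Polynomial ℕ) * (v + 2)).eval c.q =
      u.eval c.q + (i : ℕ) * (v.eval c.q + 2) := by
    simp [Polynomial.eval_natCast]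
  rw [h1]
  have h2 : |(pt u v c i : ℝ)| = 2 ^ 2 ^ (u.eval c.q + (i : ℕ) * (v.eval c.q + 2)) := by
    simp only [pt, pnat]
    push_cast
    rw [abs_of_nonneg (by positivity)]
  exact h2.le

theorem pt_le (c : Cfg) (i : Fin 5) :
    |(pt u v c i : ℝ)| ≤ 2 ^ 2 ^ ((u + 4 * (v + 2)).eval c.q) := by
  have h1 : (u + 4 * (v + 2)).eval c.q = u.eval c.q + 4 * (v.eval c.q + 2) := by
    simp
  rw [h1]
  simp only [pt, pnat]
  push_cast
  rw [abs_of_nonneg (by positivity)]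
  refine dexp_mono (Nat.add_le_add_left (Nat.mul_le_mul_right _ ?_) _)
  omega

theorem PB_mo : EB Cfg.q (mo a) := by
  refine EB.mono (G := fun c : Cfg => 2 * 2 ^ (a + 1).eval c.q) ?_ fun c => ?_
  · exact (EB.const 2).mul (PB.eval (a + 1)).two_pow
  · simp only [mo, Polynomial.eval_add, Polynomial.eval_one]
    exact Nat.sub_le _ _

variable {a} (ha : ∀ c : Cfg, Bd (outQ c.f) (2 ^ 2 ^ a.eval c.q) (2 ^ a.eval c.q))

include ha

theorem outQ_lt (c : Cfg) : (outQ c.f).totalDegree < 2 ^ (a.eval c.q + 1) :=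
  lt_of_le_of_lt (ha c).totalDegree_le₂ (Nat.pow_lt_pow_right (by norm_num) (by omega))

theorem UB_QO : UB (R := fun c : Cfg => MvPolynomial (Fin c.n) ℤ) Cfg.q
    (fun c => QO (pt u v c) c.f) := by
  unfold QO
  have h1 : UB (R := fun c : Cfg => MvPolynomial (Fin c.n) PP) Cfg.q (fun c => outQ c.f) := ⟨a, ha⟩
  exact UB.map_xhomZ (σ := fun c : Cfg => Fin c.n) (τ := fun _ => Fin 5) h1
    (p := fun c => pt u v c) (P := fun c => 2 ^ 2 ^ ((u + 4 * (v + 2)).eval c.q))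
    ⟨u + 4 * (v + 2), fun c => le_rfl⟩ (pt_le u v)

theorem UB_gO : UB (R := fun x : Σ c : Cfg, Fin c.n => MvPolynomial (Fin x.1.n) ℤ)
    (fun x => x.1.q) (fun x => gO (pt u v x.1) x.1.f x.2) := by
  simp only [gO_eq]
  refine UB.sub (UB.mul (UB.C (UB.int ?_)) (UB.pderiv (UB.pow
    ((UB_QO u v ha).comp fun x : Σ c : Cfg, Fin c.n => x.1) (EB.const 2)) _)) (UB.C (UB.int ?_))
  · have h := ((DB_pt u v 4).mul (DB_pt u v 3) (fun _ => abs_nonneg _)
      fun _ => abs_nonneg _).comp fun x : Σ c : Cfg, Fin c.n => x.1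
    refine h.mono fun x => ?_
    rw [← abs_mul]
    push_cast
    exact le_rfl
  · exact (DB_pt u v 4).comp fun x : Σ c : Cfg, Fin c.n => x.1

theorem gO_lt (c : Cfg) : ∀ i, (gO (pt u v c) c.f i).totalDegree < mo a c :=
  gO_totalDegree_lt (pt u v c) (outQ_lt ha c)

/-- the outer Thom polynomials -/
theorem UB_outerThom :
    UB (R := fun x : Σ c : Cfg, Fin c.n × ℕ => MvPolynomial (Fin x.1.n) ℤ)
      (fun x => x.1.q)
      (fun x => mthom (mo a x.1) (gO (pt u v x.1) x.1.f) x.2.1 x.2.2) :=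
  UB.mthom (ι := Σ c : Cfg, Fin c.n × ℕ) (R := fun _ => ℤ) (n := fun x => x.1.n)
    (m := fun x => mo a x.1)
    (g := fun x => gO (pt u v x.1) x.1.f)
    (PB_n.comp fun x : Σ c : Cfg, Fin c.n × ℕ => x.1)
    ((PB_mo a).comp fun x : Σ c : Cfg, Fin c.n × ℕ => x.1)
    (fun x => gO_lt u v ha x.1)
    ((UB_gO u v ha).comp fun x : Σ y : (Σ c : Cfg, Fin c.n × ℕ), Fin y.1.n => ⟨x.1.1, x.2⟩)
    (fun x => x.2.1) (fun x => x.2.2)

omit ha

/-- test parameters -/
noncomputable abbrev tp (k e t b l : Polynomial ℕ) (c : Cfg) : TPar :=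
  mkTPar (k.eval c.q) (e.eval c.q) (t.eval c.q) (b.eval c.q) (l.eval c.q)

theorem tp_K (k e t b l : Polynomial ℕ) : EB Cfg.q fun c => (tp k e t b l c).K :=
  (PB.eval k).two_pow
theorem tp_e (k e t b l : Polynomial ℕ) : EB Cfg.q fun c => (tp k e t b l c).e := by
  have := (PB.eval (q := Cfg.q) (e + 1)).two_pow
  refine this.mono fun c => ?_
  simp [tp, mkTPar]
theorem tp_B (k e t b l : Polynomial ℕ) : EB Cfg.q fun c => (tp k e t b l c).B :=
  (PB.eval b).two_pow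
theorem tp_L (k e t b l : Polynomial ℕ) : EB Cfg.q fun c => (tp k e t b l c).L :=
  (PB.eval l).two_pow
theorem tp_T0 (k e t b l : Polynomial ℕ) : DB Cfg.q fun c => ((tp k e t b l c).T0 : ℝ) := by
  refine ⟨t, fun c => ?_⟩
  simp only [tp, mkTPar]
  push_cast
  exact le_rfl
theorem tp_B0 (k e t b l : Polynomial ℕ) (c : Cfg) : 0 < (tp k e t b l c).B := by
  simp only [tp, mkTPar]; positivity
theorem tp_L0 (k e t b l : Polynomial ℕ) (c : Cfg) : 0 < (tp k e t b l c).L := by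
  simp only [tp, mkTPar]; positivity

/-- outer property polynomials -/
theorem UB_psiOut (k e t b l k' e' t' b' l' : Polynomial ℕ) :
    UB (R := fun x : Cfg × ℕ => Zx x.1.n) (fun x => x.1.q)
      (fun x => psiOut (pt u v x.1) (tp k e t b l x.1) (tp k' e' t' b' l' x.1) x.1.f x.2) := by
  unfold psiOut
  have hT' : UB (R := fun x : Cfg × ℕ => Zx x.1.n) (fun x => x.1.q)
      (fun x => ((tp k' e' t' b' l' x.1).T0 : Zx x.1.n)) :=
    UB.natCast ((tp_T0 k' e' t' b' l').comp fun x : Cfg × ℕ => x.1)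
  refine UB.ite _ (UB.sub (UB.mul hT' (UB.sub (UB.C (UB.int ?_)) (UB.sum (UB.pow (UB.X _)
    (EB.const 2)) ((card_univ_EB PB_n).comp fun x : Cfg × ℕ => x.1)))) UB.one)
    (UB.add (UB.mul hT' ?_) UB.one)
  · have h := ((DB_pt u v 0).pow (EB.const 2) (fun _ => abs_nonneg _)).comp
      fun x : Cfg × ℕ => x.1
    refine h.mono fun x => ?_
    push_cast
    rw [abs_pow]
  · exact (UB_innerN (DB_pt u v 1) (DB_pt u v 2) (tp_K k e t b l) (tp_e k e t b l)
      (tp_T0 k e t b l) (tp_B k e t b l) (tp_L k e t b l) (tp_B0 k e t b l)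
      (tp_L0 k e t b l)).comp fun x : Cfg × ℕ => (x.1, x.2 - 1)

theorem EB_nOut (k e t b l : Polynomial ℕ) : EB Cfg.q fun c => nOut c.n (tp k e t b l c) := by
  unfold nOut nSeeds
  exact (EB.const 1).add (((((EB.const 2).mul (tp_B k e t b l)).pow (PB.const 2)).mul
    (tp_L k e t b l)).mul ((EB_mI.pow PB_n).add (EB.const 1)))

include ha

/-- combined outer family -/
theorem UB_outerFam (k e t b l k' e' t' b' l' : Polynomial ℕ) :
    UB (R := fun x : Cfg × ℕ => MvPolynomial (Fin x.1.n) ℤ)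
      (fun x => x.1.q)
      (fun x => famG (mo a x.1) (gO (pt u v x.1) x.1.f)
        (nOut x.1.n (tp k e t b l x.1)) (tp k' e' t' b' l' x.1).T0
        (psiOut (pt u v x.1) (tp k e t b l x.1) (tp k' e' t' b' l' x.1) x.1.f)
        x.2) := by
  unfold famG
  refine UB.ite _ (UB_psiOut u v k e t b l k' e' t' b' l')
    (UB.add (UB.mul (UB.natCast ((tp_T0 k' e' t' b' l').comp fun x : Cfg × ℕ => x.1)) ?_)
      (UB.ite _ UB.one (UB.neg UB.one)))
  exact (UB_outerThom u v ha).comp fun x : Cfg × ℕ =>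
    ⟨x.1, Fin.ofNat x.1.n ((x.2 - nOut x.1.n (tp k e t b l x.1)) / 2),
      (x.2 - nOut x.1.n (tp k e t b l x.1)) / 2 / x.1.n⟩

/-- outer seed polynomials -/
theorem UB_outerSeed (k e t b l k' e' t' b' l' : Polynomial ℕ) :
    UB (R := fun x : Cfg × ℕ => MvPolynomial (Fin x.1.n) ℤ)
      (fun x => x.1.q)
      (fun x => seedPolyS (mo a x.1) (gO (pt u v x.1) x.1.f) (tp k' e' t' b' l' x.1)
        (nOut x.1.n (tp k e t b l x.1))
        (psiOut (pt u v x.1) (tp k e t b l x.1) (tp k' e' t' b' l' x.1) x.1.f)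
        x.2) :=
  UB_seedPolyS (ι := Cfg × ℕ) (R := fun _ => ℤ) (n := fun x => x.1.n)
    (m := fun x => mo a x.1)
    (g := fun x => gO (pt u v x.1) x.1.f)
    (t := fun x => tp k' e' t' b' l' x.1)
    (ψ := fun x => psiOut (pt u v x.1) (tp k e t b l x.1) (tp k' e' t' b' l' x.1) x.1.f)
    (N1 := fun x => nOut x.1.n (tp k e t b l x.1)) (s := fun x => x.2)
    (PB_n.comp fun x : Cfg × ℕ => x.1) ((PB_mo a).comp fun x : Cfg × ℕ => x.1)
    ((EB_nOut k e t b l).comp fun x : Cfg × ℕ => x.1)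
    ((tp_K k' e' t' b' l').comp fun x : Cfg × ℕ => x.1)
    ((tp_e k' e' t' b' l').comp fun x : Cfg × ℕ => x.1)
    ((tp_B k' e' t' b' l').comp fun x : Cfg × ℕ => x.1)
    ((tp_L k' e' t' b' l').comp fun x : Cfg × ℕ => x.1)
    (fun x => tp_B0 k' e' t' b' l' x.1) (fun x => tp_L0 k' e' t' b' l' x.1)
    ((UB_outerFam u v ha k e t b l k' e' t' b' l').comp
      fun x : (Cfg × ℕ) × ℕ => (x.1.1, x.2))

end

end DegOut

open MvPolynomial DegOut in
/-- (C11b) degree (in `x`) of the outer polynomials at the integer parameter point -/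
theorem exists_outer_degree_bound (a u v k e t b l k' e' t' b' l' : Polynomial ℕ)
    (ha : ∀ c : Cfg, Bd (outQ c.f) (2 ^ 2 ^ a.eval c.q) (2 ^ a.eval c.q)) :
    ∃ A : Polynomial ℕ, ∀ (c : Cfg) (s : ℕ),
      (QO (fun i => (pnat (u.eval c.q) (v.eval c.q) i : ℤ)) c.f).totalDegree ≤
        2 ^ A.eval c.q ∧
      (∀ i, (gO (fun i => (pnat (u.eval c.q) (v.eval c.q) i : ℤ)) c.f i).totalDegree ≤
        2 ^ A.eval c.q) ∧
      (mjac (2 * 2 ^ (a.eval c.q + 1) - 1)
        (gO (fun i => (pnat (u.eval c.q) (v.eval c.q) i : ℤ)) c.f)).totalDegree ≤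
        2 ^ A.eval c.q ∧
      (∀ i j, (mthom (2 * 2 ^ (a.eval c.q + 1) - 1)
        (gO (fun i => (pnat (u.eval c.q) (v.eval c.q) i : ℤ)) c.f) i j).totalDegree ≤
        2 ^ A.eval c.q) ∧
      (∀ j, (psiOut (fun i => (pnat (u.eval c.q) (v.eval c.q) i : ℤ))
        (mkTPar (k.eval c.q) (e.eval c.q) (t.eval c.q) (b.eval c.q) (l.eval c.q))
        (mkTPar (k'.eval c.q) (e'.eval c.q) (t'.eval c.q) (b'.eval c.q) (l'.eval c.q))
        c.f j).totalDegree ≤ 2 ^ A.eval c.q) ∧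
      (seedPolyS (2 * 2 ^ (a.eval c.q + 1) - 1)
        (gO (fun i => (pnat (u.eval c.q) (v.eval c.q) i : ℤ)) c.f)
        (mkTPar (k'.eval c.q) (e'.eval c.q) (t'.eval c.q) (b'.eval c.q) (l'.eval c.q))
        (nOut c.n (mkTPar (k.eval c.q) (e.eval c.q) (t.eval c.q) (b.eval c.q) (l.eval c.q)))
        (psiOut (fun i => (pnat (u.eval c.q) (v.eval c.q) i : ℤ))
          (mkTPar (k.eval c.q) (e.eval c.q) (t.eval c.q) (b.eval c.q) (l.eval c.q))
          (mkTPar (k'.eval c.q) (e'.eval c.q) (t'.eval c.q) (b'.eval c.q) (l'.eval c.q))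
          c.f) s).totalDegree ≤ 2 ^ A.eval c.q := by
  obtain ⟨A1, h1⟩ := (UB_QO u v ha).totalDegree
  obtain ⟨A2, h2⟩ := (UB_gO u v ha).totalDegree
  have h3' : EB Cfg.q (fun c => c.n * (mo a c)) := PB_n.eb.mul (PB_mo a)
  obtain ⟨A3, h3⟩ := h3'
  obtain ⟨A4, h4⟩ := (UB_outerThom u v ha).totalDegree
  obtain ⟨A5, h5⟩ := (UB_psiOut u v k e t b l k' e' t' b' l').totalDegree
  obtain ⟨A6, h6⟩ := (UB_outerSeed u v ha k e t b l k' e' t' b' l').totalDegree
  refine ⟨A1 + A2 + A3 + A4 + A5 + A6, fun c s => ?_⟩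
  simp only [Polynomial.eval_add]
  have hp : ∀ x y : ℕ, x ≤ y → 2 ^ x ≤ 2 ^ y := fun x y h => Nat.pow_le_pow_right (by norm_num) h
  refine ⟨(h1 c).trans (hp _ _ (by omega)), fun i => (h2 ⟨c, i⟩).trans
      (hp _ _ (by change A2.eval c.q ≤ _; omega)), ?_,
    fun i j => (h4 ⟨c, i, j⟩).trans (hp _ _ (by change A4.eval c.q ≤ _; omega)),
    fun j => (h5 (c, j)).trans (hp _ _ (by change A5.eval c.q ≤ _; omega)),
    (h6 (c, s)).trans (hp _ _ (by change A6.eval c.q ≤ _; omega))⟩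
  refine (totalDegree_mjac_le (m := mo a c) (d := mo a c) le_rfl
    (fun i => (gO_lt u v ha c i).le)).trans ?_
  exact (h3 c).trans (hp _ _ (by omega))

end Crest.Agent.R316
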