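import Crest.Agent.R316.Num.ParamsOut

/-!
# R316 / Num / DegW (C10): the final integers are at most doubly exponential (helper935)
-/

set_option autoImplicit false

namespace Crest.Agent.R316

open MvPolynomial

section
variable {p : Cfg → Fin 5 → ℤ} {tt tt' : Cfg → TPar} {m : Cfg → ℕ}

theorem EB_nOut (hB : EB Cfg.q fun c => (tt c).B) (hL : EB Cfg.q fun c => (tt c).L) :
    EB Cfg.q (fun c => nOut c.n (tt c)) :=
  (EB.const 1).add (((((EB.const 2).mul hB).pow (PB.const 2)).mul hL).mul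
    ((EB_mI.pow PB_n).add (EB.const 1)))

/-- outer property polynomials -/
theorem UB_psiOut (hp : ∀ i, DB Cfg.q fun c => |(p c i : ℝ)|)
    (hK : EB Cfg.q fun c => (tt c).K) (he : EB Cfg.q fun c => (tt c).e)
    (hT0 : DB Cfg.q fun c => ((tt c).T0 : ℝ)) (hB : EB Cfg.q fun c => (tt c).B)
    (hL : EB Cfg.q fun c => (tt c).L) (hB0 : ∀ c, 0 < (tt c).B) (hL0 : ∀ c, 0 < (tt c).L)
    (hT0' : DB Cfg.q fun c => ((tt' c).T0 : ℝ)) :
    UB (R := fun x : Cfg × ℕ => MvPolynomial (Fin x.1.n) ℤ) (fun x => x.1.q)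
      (fun x => psiOut (p x.1) (tt x.1) (tt' x.1) x.1.f x.2) := by
  unfold psiOut
  have hT : UB (R := fun x : Cfg × ℕ => MvPolynomial (Fin x.1.n) ℤ) (fun x => x.1.q)
      (fun x => ((tt' x.1).T0 : MvPolynomial (Fin x.1.n) ℤ)) :=
    UB.natCast (hT0'.comp fun x : Cfg × ℕ => x.1)
  have hu0 : UB (R := fun c : Cfg => MvPolynomial (Fin c.n) ℤ) Cfg.q
      (fun c => C (p c 0 ^ 2) - ∑ i, X i ^ 2) :=
    UB.sub (UB.C (UB.pow (UB.int (hp 0)) (EB.const 2))) (UB.sum (UB.pow (UB.X _)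
      (EB.const 2)) (card_univ_EB PB_n))
  have hu1 : UB (R := fun x : Cfg × ℕ => Zx x.1.n) (fun x => x.1.q)
      (fun x => innerN (RingHom.id (Zx x.1.n)) (C (p x.1 1)) (C (p x.1 2)) (tt x.1) x.1.f
        x.2) :=
    UB_innerN (p1 := fun c => p c 1) (p2 := fun c => p c 2) (hp 1) (hp 2) (t := tt)
      hK he hT0 hB hL hB0 hL0
  exact UB.ite _ (UB.sub (UB.mul hT (hu0.comp fun x : Cfg × ℕ => x.1)) UB.one)
    (UB.add (UB.mul hT (hu1.comp fun x : Cfg × ℕ => (x.1, x.2 - 1))) UB.one)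

/-- the combined outer family -/
theorem UB_outFam (hmEB : EB Cfg.q m) (hg : ∀ (c : Cfg) j, (gO (p c) c.f j).totalDegree < m c)
    (hgU : UB (R := fun x : Σ c : Cfg, Fin c.n => MvPolynomial (Fin x.1.n) ℤ) (fun x => x.1.q)
      (fun x => gO (p x.1) x.1.f x.2))
    (hψ : UB (R := fun x : Cfg × ℕ => MvPolynomial (Fin x.1.n) ℤ) (fun x => x.1.q)
      (fun x => psiOut (p x.1) (tt x.1) (tt' x.1) x.1.f x.2))
    (hT0' : DB Cfg.q fun c => ((tt' c).T0 : ℝ)) :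
    UB (R := fun x : Cfg × ℕ => MvPolynomial (Fin x.1.n) ℤ) (fun x => x.1.q)
      (fun x => famG (m x.1) (gO (p x.1) x.1.f) (nOut x.1.n (tt x.1)) (tt' x.1).T0
        (psiOut (p x.1) (tt x.1) (tt' x.1) x.1.f) x.2) := by
  unfold famG
  have hu2 : UB (R := fun x : Σ c : Cfg, Fin c.n × ℕ => MvPolynomial (Fin x.1.n) ℤ)
      (fun x => x.1.q) (fun x => mthom (m x.1) (gO (p x.1) x.1.f) x.2.1 x.2.2) :=
    UB.mthom (ι := Σ c : Cfg, Fin c.n × ℕ) (R := fun _ => ℤ) (n := fun x => x.1.n)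
      (m := fun x => m x.1) (g := fun x => gO (p x.1) x.1.f)
      (PB_n.comp fun x : Σ c : Cfg, Fin c.n × ℕ => x.1)
      (hmEB.comp fun x : Σ c : Cfg, Fin c.n × ℕ => x.1) (fun x => hg x.1)
      (hgU.comp fun x : Σ y : (Σ c : Cfg, Fin c.n × ℕ), Fin y.1.n => ⟨x.1.1, x.2⟩)
      (fun x => x.2.1) (fun x => x.2.2)
  refine UB.ite _ hψ (UB.add (UB.mul (UB.natCast (hT0'.comp fun x : Cfg × ℕ => x.1)) ?_)
    (UB.ite _ UB.one (UB.neg UB.one)))
  exact hu2.comp fun x : Cfg × ℕ => ⟨x.1, Fin.ofNat x.1.n ((x.2 - nOut x.1.n (tt x.1)) / 2),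
    (x.2 - nOut x.1.n (tt x.1)) / 2 / x.1.n⟩

end

/-- (C10) the final integers are at most doubly exponential -/
theorem exists_finalW_bound (a u v k e t b l k' e' t' b' l' : Polynomial ℕ)
    (ha : ∀ c : Cfg, Bd (outQ c.f) (2 ^ 2 ^ a.eval c.q) (2 ^ a.eval c.q)) :
    ∃ B : Polynomial ℕ, ∀ (c : Cfg) (s : ℕ),
      |finalW (2 ^ (a.eval c.q + 1)) (fun i => (pnat (u.eval c.q) (v.eval c.q) i : ℤ))
        (mkTPar (k.eval c.q) (e.eval c.q) (t.eval c.q) (b.eval c.q) (l.eval c.q))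
        (mkTPar (k'.eval c.q) (e'.eval c.q) (t'.eval c.q) (b'.eval c.q) (l'.eval c.q))
        c.f s| ≤ 2 ^ 2 ^ B.eval c.q := by
  set p : Cfg → Fin 5 → ℤ := fun c i => ((pnat (u.eval c.q) (v.eval c.q) i : ℕ) : ℤ) with hpdef
  have hp : ∀ i, DB Cfg.q fun c => |(p c i : ℝ)| := fun i => DB_pnat u v i
  set tt : Cfg → TPar := fun c =>
    mkTPar (k.eval c.q) (e.eval c.q) (t.eval c.q) (b.eval c.q) (l.eval c.q) with htt
  set tt' : Cfg → TPar := fun c =>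
    mkTPar (k'.eval c.q) (e'.eval c.q) (t'.eval c.q) (b'.eval c.q) (l'.eval c.q) with htt'
  set m : Cfg → ℕ := fun c => 2 * 2 ^ (a.eval c.q + 1) - 1 with hm
  have hmEB : EB Cfg.q m := EB_outM a
  have hg : ∀ (c : Cfg) j, (gO (p c) c.f j).totalDegree < m c := fun c =>
    gO_totalDegree_lt (p c) (outQ_totalDegree_lt ha c)
  have hgU := UB_gO ha hp
  have hB : EB Cfg.q fun c => (tt c).B := (PB.eval b).two_pow
  have hL : EB Cfg.q fun c => (tt c).L := (PB.eval l).two_pow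
  have hT0 : DB Cfg.q fun c => ((tt c).T0 : ℝ) := ⟨t, fun c => by simp [htt, mkTPar]⟩
  have hT0' : DB Cfg.q fun c => ((tt' c).T0 : ℝ) := ⟨t', fun c => by simp [htt', mkTPar]⟩
  have hψ := UB_psiOut (tt := tt) (tt' := tt') hp (PB.eval k).two_pow
    ((PB.eval e).add (PB.const 1)).two_pow hT0 hB hL (fun c => by simp [htt, mkTPar])
    (fun c => by simp [htt, mkTPar]) hT0'
  have hfam := UB_outFam hmEB hg hgU hψ hT0'
  have hseed : UB (R := fun x : Cfg × ℕ => MvPolynomial (Fin x.1.n) ℤ) (fun x => x.1.q)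
      (fun x => seedPolyS (m x.1) (gO (p x.1) x.1.f) (tt' x.1) (nOut x.1.n (tt x.1))
        (psiOut (p x.1) (tt x.1) (tt' x.1) x.1.f) x.2) :=
    UB_seedPolyS (ι := Cfg × ℕ) (R := fun _ => ℤ) (n := fun x => x.1.n)
      (m := fun x => m x.1) (g := fun x => gO (p x.1) x.1.f) (t := fun x => tt' x.1)
      (ψ := fun x => psiOut (p x.1) (tt x.1) (tt' x.1) x.1.f)
      (N1 := fun x => nOut x.1.n (tt x.1)) (s := fun x => x.2)
      (PB_n.comp fun x : Cfg × ℕ => x.1) (hmEB.comp fun x : Cfg × ℕ => x.1)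
      ((EB_nOut hB hL).comp fun x : Cfg × ℕ => x.1)
      ((PB.eval k').two_pow.comp fun x : Cfg × ℕ => x.1)
      (((PB.eval e').add (PB.const 1)).two_pow.comp fun x : Cfg × ℕ => x.1)
      ((PB.eval b').two_pow.comp fun x : Cfg × ℕ => x.1)
      ((PB.eval l').two_pow.comp fun x : Cfg × ℕ => x.1)
      (fun x => by simp [htt', mkTPar]) (fun x => by simp [htt', mkTPar])
      (hfam.comp fun x : (Cfg × ℕ) × ℕ => (x.1.1, x.2))
  have hfin : UB (R := fun _ : Cfg × ℕ => ℤ) (fun x => x.1.q)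
      (fun x => mnorm (m x.1) (gO (p x.1) x.1.f) (seedPolyS (m x.1) (gO (p x.1) x.1.f) (tt' x.1)
        (nOut x.1.n (tt x.1)) (psiOut (p x.1) (tt x.1) (tt' x.1) x.1.f) x.2)) :=
    UB.mnorm (ι := Cfg × ℕ) (R := fun _ => ℤ) (n := fun x => x.1.n) (m := fun x => m x.1)
      (g := fun x => gO (p x.1) x.1.f) (PB_n.comp fun x : Cfg × ℕ => x.1)
      (hmEB.comp fun x : Cfg × ℕ => x.1) (fun x => hg x.1)
      (hgU.comp fun x : Σ y : Cfg × ℕ, Fin y.1.n => ⟨x.1.1, x.2⟩) hseed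
  obtain ⟨A, hA⟩ := hfin
  refine ⟨A, fun c s => ?_⟩
  have h := hA (c, s) 1 le_rfl
  rw [one_pow, mul_one] at h
  change |((finalW (2 ^ (a.eval c.q + 1)) (p c) (tt c) (tt' c) c.f s : ℤ) : ℝ)| ≤
    2 ^ 2 ^ A.eval c.q at h
  exact_mod_cast h

end Crest.Agent.R316
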