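import Crest.Agent.R316.Num.Params
import Crest.Agent.R316.Num.DegIn
import Crest.Agent.R316.Num.DegW
import Crest.Agent.R316.Num.DegOut

/-!
# R316 / Num / Deg  (tasks C10, C11) : bounds needed by the complexity side
-/

set_option autoImplicit false

namespace Crest.Agent.R316

open MvPolynomial

end Crest.Agent.R316
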