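import Crest.Agent.R316.Ana.Spec
import Crest.Agent.R316.Alg.Gap

/-!
# R316 / Num / PolyNu  (task C2)
Size classes for univariate polynomials, characteristic polynomials, Thom polynomials, and the
generic test expressions.
-/

set_option autoImplicit false

namespace Crest.Agent.R316

open MvPolynomial

variable {R : Type*} [CommRing R]

/-- weighted norm of a univariate polynomial -/
noncomputable def nuU (ν : R → ℝ) (ρ : ℝ) (P : Polynomial R) : ℝ :=
  ∑ j ∈ P.support, ν (P.coeff j) * ρ ^ j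

theorem nuU_eq_sum_of_subset {ν : R → ℝ} (hν : IsNu ν) (ρ : ℝ)
    (P : Polynomial R) (S : Finset ℕ) (hS : P.support ⊆ S) :
    nuU ν ρ P = ∑ j ∈ S, ν (P.coeff j) * ρ ^ j := by
  unfold nuU
  refine Finset.sum_subset hS ?_
  intro s _ hs
  rw [Polynomial.notMem_support_iff] at hs
  rw [hs, hν.zero, zero_mul]

theorem nuU_nonneg {ν : R → ℝ} (hν : IsNu ν) {ρ : ℝ} (hρ : 0 ≤ ρ)
    (P : Polynomial R) : 0 ≤ nuU ν ρ P :=
  Finset.sum_nonneg fun _ _ => mul_nonneg (hν.nonneg _) (pow_nonneg hρ _)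

theorem nuU_zero (ν : R → ℝ) (ρ : ℝ) : nuU ν ρ 0 = 0 := by
  simp [nuU]

theorem nuU_neg {ν : R → ℝ} (hν : IsNu ν) (ρ : ℝ) (P : Polynomial R) :
    nuU ν ρ (-P) = nuU ν ρ P := by
  unfold nuU
  rw [Polynomial.support_neg]
  refine Finset.sum_congr rfl fun s _ => ?_
  rw [Polynomial.coeff_neg, hν.neg]

theorem nuU_add_le {ν : R → ℝ} (hν : IsNu ν) {ρ : ℝ} (hρ : 0 ≤ ρ)
    (P Q : Polynomial R) : nuU ν ρ (P + Q) ≤ nuU ν ρ P + nuU ν ρ Q := by
  classical
  rw [nuU_eq_sum_of_subset hν ρ (P + Q) (P.support ∪ Q.support) Polynomial.support_add,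
    nuU_eq_sum_of_subset hν ρ P (P.support ∪ Q.support) Finset.subset_union_left,
    nuU_eq_sum_of_subset hν ρ Q (P.support ∪ Q.support) Finset.subset_union_right,
    ← Finset.sum_add_distrib]
  refine Finset.sum_le_sum fun s _ => ?_
  rw [Polynomial.coeff_add, ← add_mul]
  exact mul_le_mul_of_nonneg_right (hν.add_le _ _) (pow_nonneg hρ _)

theorem nuU_sum_le {ι : Type*} {ν : R → ℝ} (hν : IsNu ν) {ρ : ℝ} (hρ : 0 ≤ ρ)
    (s : Finset ι) (P : ι → Polynomial R) :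
    nuU ν ρ (∑ i ∈ s, P i) ≤ ∑ i ∈ s, nuU ν ρ (P i) := by
  classical
  induction s using Finset.induction_on with
  | empty => simp [nuU_zero]
  | insert a s ha ih =>
    rw [Finset.sum_insert ha, Finset.sum_insert ha]
    exact (nuU_add_le hν hρ _ _).trans (add_le_add le_rfl ih)

theorem nuU_monomial {ν : R → ℝ} (hν : IsNu ν) (ρ : ℝ) (s : ℕ) (a : R) :
    nuU ν ρ (Polynomial.monomial s a) = ν a * ρ ^ s := by
  rw [nuU_eq_sum_of_subset hν ρ (Polynomial.monomial s a) {s}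
    (Polynomial.support_monomial_subset s a)]
  simp

theorem nuU_monomial_mul_le {ν : R → ℝ} (hν : IsNu ν) {ρ : ℝ} (hρ : 0 ≤ ρ)
    (s : ℕ) (a : R) (Q : Polynomial R) :
    nuU ν ρ (Polynomial.monomial s a * Q) ≤ (ν a * ρ ^ s) * nuU ν ρ Q := by
  conv_lhs => rw [Q.as_sum_support, Finset.mul_sum]
  refine (nuU_sum_le hν hρ _ _).trans ?_
  conv_rhs => arg 2; rw [nuU]
  rw [Finset.mul_sum]
  refine Finset.sum_le_sum fun t _ => ?_
  rw [Polynomial.monomial_mul_monomial, nuU_monomial hν, pow_add]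
  have h1 : ν (a * Q.coeff t) ≤ ν a * ν (Q.coeff t) := hν.mul_le _ _
  have h2 : 0 ≤ ρ ^ s * ρ ^ t := by positivity
  calc ν (a * Q.coeff t) * (ρ ^ s * ρ ^ t)
      ≤ ν a * ν (Q.coeff t) * (ρ ^ s * ρ ^ t) := mul_le_mul_of_nonneg_right h1 h2
    _ = _ := by ring

theorem nuU_mul_le {ν : R → ℝ} (hν : IsNu ν) {ρ : ℝ} (hρ : 0 ≤ ρ)
    (P Q : Polynomial R) : nuU ν ρ (P * Q) ≤ nuU ν ρ P * nuU ν ρ Q := by
  have h1 : P * Q = ∑ s ∈ P.support, Polynomial.monomial s (P.coeff s) * Q := by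
    conv_lhs => rw [P.as_sum_support, Finset.sum_mul]
  rw [h1]
  refine (nuU_sum_le hν hρ _ _).trans ?_
  refine (Finset.sum_le_sum fun s _ => nuU_monomial_mul_le hν hρ s _ Q).trans ?_
  rw [← Finset.sum_mul]
  rfl

theorem nuU_C {ν : R → ℝ} (hν : IsNu ν) (ρ : ℝ) (a : R) :
    nuU ν ρ (Polynomial.C a) = ν a := by
  have := nuU_monomial hν ρ 0 a
  rw [pow_zero, mul_one] at this
  exact this

theorem IsNu.nuU {ν : R → ℝ} (hν : IsNu ν) {ρ : ℝ} (hρ : 0 ≤ ρ) :
    IsNu (Crest.Agent.R316.nuU ν ρ) where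
  nonneg := nuU_nonneg hν hρ
  zero := nuU_zero ν ρ
  one_le := by
    have := nuU_C hν ρ (1 : R)
    rw [map_one] at this
    rw [this]; exact hν.one_le
  neg := nuU_neg hν ρ
  add_le := nuU_add_le hν hρ
  mul_le := nuU_mul_le hν hρ

noncomputable instance [HasNu R] : HasNu (Polynomial R) where
  nu ρ := nuU (HasNu.nu ρ) ρ
  isNu ρ hρ := (HasNu.isNu ρ hρ).nuU (by linarith)

theorem nu_polyCoeff_le {ν : R → ℝ} (hν : IsNu ν) {ρ : ℝ} (hρ : 1 ≤ ρ)
    (P : Polynomial R) (j : ℕ) : ν (P.coeff j) ≤ nuU ν ρ P := by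
  by_cases hs : j ∈ P.support
  · have h0 : 0 ≤ ρ := by linarith
    have h1 : ν (P.coeff j) * ρ ^ j ≤ nuU ν ρ P :=
      Finset.single_le_sum (f := fun s => ν (P.coeff s) * ρ ^ s)
        (fun t _ => mul_nonneg (hν.nonneg _) (pow_nonneg h0 _)) hs
    refine le_trans ?_ h1
    exact le_mul_of_one_le_right (hν.nonneg _) (one_le_pow₀ hρ)
  · rw [Polynomial.notMem_support_iff] at hs
    rw [hs, hν.zero]
    exact nuU_nonneg hν (by linarith) P

section
variable [HasNu R]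

theorem Bd.polyC {P : R} {c : ℝ} {E : ℕ} (h : Bd P c E) : Bd (Polynomial.C P) c E := by
  intro ρ hρ
  change Crest.Agent.R316.nuU (HasNu.nu ρ) ρ (Polynomial.C P) ≤ _
  rw [nuU_C (HasNu.isNu ρ hρ)]
  exact h ρ hρ

theorem bd_polyX : Bd (Polynomial.X : Polynomial R) 1 1 := by
  intro ρ hρ
  change Crest.Agent.R316.nuU (HasNu.nu ρ) ρ (Polynomial.monomial 1 1) ≤ _
  rw [nuU_monomial (HasNu.isNu ρ hρ)]
  refine mul_le_mul_of_nonneg_right (HasNu.isNu ρ hρ).one_le (by positivity)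

theorem Bd.polyCoeff {P : Polynomial R} {c : ℝ} {E : ℕ} (h : Bd P c E) (j : ℕ) :
    Bd (P.coeff j) c E := by
  intro ρ hρ
  exact (nu_polyCoeff_le (HasNu.isNu ρ hρ) hρ P j).trans (h ρ hρ)

theorem Bd.mapPolyC {n : ℕ} {P : MvPolynomial (Fin n) R} {c : ℝ} {E : ℕ} (h : Bd P c E) :
    Bd (map Polynomial.C P : MvPolynomial (Fin n) (Polynomial R)) c E := by
  intro ρ hρ
  refine le_trans ?_ (h ρ hρ)
  have hν := HasNu.isNu (R := R) ρ hρ
  have hν' := HasNu.isNu (R := Polynomial R) ρ hρ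
  change nuP (HasNu.nu ρ) ρ (map Polynomial.C P) ≤ nuP (HasNu.nu ρ) ρ P
  rw [nuP_eq_sum_of_subset hν' ρ (map Polynomial.C P) P.support (support_map_subset _ _)]
  refine Finset.sum_le_sum fun s _ => ?_
  rw [coeff_map]
  refine mul_le_mul_of_nonneg_right ?_ (by positivity)
  change Crest.Agent.R316.nuU (HasNu.nu ρ) ρ (Polynomial.C (MvPolynomial.coeff s P)) ≤ _
  rw [nuU_C hν]

variable {n m : ℕ} {g : Fin n → MvPolynomial (Fin n) R}

/-- characteristic polynomial: size class -/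
theorem Bd.mcp (hg : ∀ i, (g i).totalDegree < m) {Γ : ℝ} {EΓ : ℕ} (hΓ : 1 ≤ Γ)
    (hgΓ : ∀ i, Bd (g i) Γ EΓ) {G : MvPolynomial (Fin n) R} {c : ℝ} {E : ℕ}
    (hG : Bd G c E) :
    Bd (mcp m g G) (((c + 1) * Γ ^ (G.totalDegree + n * m)) ^ (m ^ n))
      ((E + 1 + EΓ * (G.totalDegree + n * m)) * m ^ n) := by
  have hc := hG.nonneg
  have h1 : ∀ i, (map Polynomial.C (g i) : MvPolynomial (Fin n) (Polynomial R)).totalDegree < m :=
    totalDegree_map_lt Polynomial.C hg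
  have h2 : ∀ i, Bd (map Polynomial.C (g i) : MvPolynomial (Fin n) (Polynomial R)) Γ EΓ :=
    fun i => (hgΓ i).mapPolyC
  have h3 : Bd (MvPolynomial.C Polynomial.X - map Polynomial.C G : MvPolynomial (Fin n) (Polynomial R))
      (c + 1) (E + 1) := by
    have := (bd_polyX (R := R)).C (σ := Fin n) |>.sub hG.mapPolyC
    refine this.mono (by linarith) (by linarith) ?_
    rcases le_total 1 E with h | h
    · rw [max_eq_right h]; omega
    · rw [max_eq_left h]; omega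
  have h4 : (MvPolynomial.C Polynomial.X - map Polynomial.C G :
      MvPolynomial (Fin n) (Polynomial R)).totalDegree ≤ G.totalDegree := by
    refine (totalDegree_sub _ _).trans ?_
    rw [totalDegree_C]
    rw [Nat.zero_max]
    exact Finset.sup_mono (support_map_subset Polynomial.C G)
  have h5 := Bd.mnorm h1 hΓ h2 h3
  refine Bd.mono h5 ?_ (by positivity) ?_
  · refine pow_le_pow_left₀ (by positivity) ?_ _
    refine mul_le_mul_of_nonneg_left ?_ (by positivity)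
    exact pow_le_pow_right₀ hΓ (by omega)
  · refine Nat.mul_le_mul_right _ ?_
    refine Nat.add_le_add_left ?_ _
    exact Nat.mul_le_mul_left _ (by omega)

theorem nu_aeval_hasseDeriv_le {ρ : ℝ} (hρ : 1 ≤ ρ) (P : Polynomial R) {d : ℕ}
    (hd : P.natDegree ≤ d) (i : Fin n) (l : ℕ) :
    nuP (HasNu.nu ρ) ρ (Polynomial.aeval (X i : MvPolynomial (Fin n) R)
      (Polynomial.hasseDeriv l P)) ≤ 2 ^ d * Crest.Agent.R316.nuU (HasNu.nu ρ) ρ P := by
  have hν := HasNu.isNu (R := R) ρ hρ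
  have hρ0 : 0 ≤ ρ := by linarith
  have hνP := hν.nuP (σ := Fin n) hρ0
  rw [Polynomial.hasseDeriv_apply, Polynomial.sum_def, map_sum]
  refine (nuP_sum_le hν hρ0 _ _).trans ?_
  unfold Crest.Agent.R316.nuU
  rw [Finset.mul_sum]
  refine Finset.sum_le_sum fun j hj => ?_
  rw [Polynomial.aeval_monomial, MvPolynomial.algebraMap_eq]
  have hjd : j ≤ d := (Polynomial.le_natDegree_of_mem_supp j hj).trans hd
  have h1 : ((j.choose l : ℕ) : ℝ) ≤ 2 ^ d := by
    have h2 : j.choose l ≤ 2 ^ d :=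
      (Nat.choose_le_two_pow j l).trans (Nat.pow_le_pow_right (by norm_num) hjd)
    exact_mod_cast h2
  have h3 : HasNu.nu ρ (((j.choose l : ℕ) : R) * P.coeff j) ≤ 2 ^ d * HasNu.nu ρ (P.coeff j) := by
    refine (hν.natCast_mul_le _ _).trans ?_
    exact mul_le_mul_of_nonneg_right h1 (hν.nonneg _)
  have h4 : nuP (HasNu.nu ρ) ρ (X i ^ (j - l) : MvPolynomial (Fin n) R) ≤ ρ ^ j := by
    refine (hνP.pow_le _ _).trans ?_
    refine (pow_le_pow_left₀ (hνP.nonneg _) (nuP_X_le hν hρ0 i) _).trans ?_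
    exact pow_le_pow_right₀ hρ (Nat.sub_le _ _)
  refine (hνP.mul_le _ _).trans ?_
  rw [nuP_C hν, ← mul_assoc]
  exact mul_le_mul h3 h4 (hνP.nonneg _) (mul_nonneg (by positivity) (hν.nonneg _))

/-- Thom polynomials: size class -/
theorem Bd.mthom [Nontrivial R] (hg : ∀ i, (g i).totalDegree < m) {Γ : ℝ} {EΓ : ℕ} (hΓ : 1 ≤ Γ)
    (hgΓ : ∀ i, Bd (g i) Γ EΓ) (i : Fin n) (l : ℕ) :
    Bd (mthom m g i l) (2 ^ (m ^ n) * (2 * Γ ^ (1 + n * m)) ^ (m ^ n))
      ((2 + EΓ * (1 + n * m)) * m ^ n) := by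
  intro ρ hρ
  have h1 := Bd.mcp hg hΓ hgΓ (bd_X (R := R) i)
  rw [totalDegree_X] at h1
  have h2 := h1 ρ hρ
  have h3 := nu_aeval_hasseDeriv_le (n := n) hρ (mchi m g i) (d := m ^ n)
    (by unfold mchi; rw [mcp_natDegree hg]) i l
  refine h3.trans ?_
  rw [mul_assoc]
  refine mul_le_mul_of_nonneg_left ?_ (by positivity)
  refine h2.trans (le_of_eq ?_)
  norm_num

/-- sign expressions -/
theorem Bd.sgP {t : R} {c : ℝ} {E : ℕ} (hc : 0 ≤ c) (h : Bd t c E) (K e : ℕ) :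
    Bd (sgP K e t) ((c + 2 ^ K) ^ (e * (K + 1))) (E * (e * (K + 1))) := by
  unfold Crest.Agent.R316.sgP
  have h1 : ∀ k ∈ Finset.range (K + 1), Bd ((t + 2 ^ k) ^ e) ((c + 2 ^ K) ^ e) (E * e) := by
    intro k hk
    refine Bd.pow ?_ e
    have h2 : Bd ((2 : R) ^ k) (2 ^ k) 0 := by
      have := (bd_natCast (R := R) 2).pow k
      simpa using this
    have h3 := h.add h2
    rw [Nat.max_zero] at h3
    refine h3.mono ?_ (by positivity) le_rfl
    have h4 : (2 : ℝ) ^ k ≤ 2 ^ K :=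
      pow_le_pow_right₀ (by norm_num) (by rw [Finset.mem_range] at hk; omega)
    linarith
  have h5 := Bd.prod (Finset.range (K + 1)) h1
  rw [Finset.card_range, ← pow_mul, mul_assoc] at h5
  exact h5

theorem Bd.sgQ {t : R} {c : ℝ} {E : ℕ} (hc : 0 ≤ c) (h : Bd t c E) (K e : ℕ) :
    Bd (sgQ K e t) (2 * (c + 2 ^ K) ^ (e * (K + 1))) (E * (e * (K + 1))) := by
  unfold Crest.Agent.R316.sgQ
  have h1 := (Bd.sgP hc h K e).add (Bd.sgP hc h.neg K e)
  rw [max_self, ← two_mul] at h1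
  exact h1

theorem Bd.sum' {ι : Type*} (s : Finset ι) {P : ι → R} {c : ι → ℝ} {E : ℕ}
    (h : ∀ i ∈ s, Bd (P i) (c i) E) : Bd (∑ i ∈ s, P i) (∑ i ∈ s, c i) E := by
  intro ρ hρ
  refine ((HasNu.isNu ρ hρ).sum_le _ _).trans ?_
  refine (Finset.sum_le_sum fun i hi => h i hi ρ hρ).trans (le_of_eq ?_)
  rw [Finset.sum_mul]

/-- the test polynomial, crude bound -/
theorem Bd.testPoly {K e N : ℕ} {w : ℕ → ℕ} {v D c₀ W : ℕ} {G : ℕ → R} {c : ℝ} {E : ℕ}
    (hc : 1 ≤ c) (hw : ∑ k ∈ Finset.range N, w k ≤ W) (hv : v ≤ W)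
    (h : ∀ k < N, Bd (G k) c E) :
    Bd (testPoly K e N w v D c₀ G)
      ((D + 1) * 18 * (2 * (W + 1) * (2 * (c + 2 ^ K) ^ (e * (K + 1))) ^ N) ^ 2 + c₀)
      (E * (e * (K + 1)) * N * 2) := by
  have hc0 : 0 ≤ c := by linarith
  set b : ℝ := 2 * (c + 2 ^ K) ^ (e * (K + 1)) with hb
  set F : ℕ := E * (e * (K + 1)) with hF
  have hb1 : 1 ≤ b := by
    have h1 : (1 : ℝ) ≤ (c + 2 ^ K) ^ (e * (K + 1)) := by
      refine one_le_pow₀ ?_
      have : (0 : ℝ) < 2 ^ K := by positivity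
      linarith
    linarith
  have hb0 : 0 ≤ b := by linarith
  have hbN : (0 : ℝ) ≤ b ^ N := by positivity
  have hQ : ∀ k < N, Bd (Crest.Agent.R316.sgQ K e (G k)) b F := fun k hk =>
    Bd.sgQ hc0 (h k hk) K e
  have hP : ∀ k < N, Bd (Crest.Agent.R316.sgP K e (-(G k))) b F := fun k hk => by
    refine (Bd.sgP hc0 (h k hk).neg K e).mono ?_ hb0 le_rfl
    have h1 : (0 : ℝ) ≤ (c + 2 ^ K) ^ (e * (K + 1)) := by positivity
    linarith
  have hden : Bd (testDen K e N G) (b ^ N) (F * N) := by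
    unfold testDen
    have h1 := Bd.prod (Finset.range N) (P := fun j => Crest.Agent.R316.sgQ K e (G j))
      (c := b) (E := F) (fun j hj => hQ j (Finset.mem_range.1 hj))
    rw [Finset.card_range] at h1
    exact h1
  have hterm : ∀ k ∈ Finset.range N, Bd ((w k : R) * Crest.Agent.R316.sgP K e (-(G k)) *
      ∏ j ∈ (Finset.range N).erase k, Crest.Agent.R316.sgQ K e (G j)) ((w k : ℝ) * b ^ N)
      (F * N) := by
    intro k hk
    have hkN := Finset.mem_range.1 hk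
    have h1 := Bd.prod ((Finset.range N).erase k) (P := fun j => Crest.Agent.R316.sgQ K e (G j))
      (c := b) (E := F) (fun j hj => hQ j (Finset.mem_range.1 (Finset.mem_of_mem_erase hj)))
    rw [Finset.card_erase_of_mem hk, Finset.card_range] at h1
    have h2 := ((bd_natCast (R := R) (w k)).mul (hP k hkN)).mul h1
    refine h2.mono (le_of_eq ?_) (by positivity) (le_of_eq ?_)
    · obtain ⟨M, rfl⟩ : ∃ M, N = M + 1 := ⟨N - 1, by omega⟩
      rw [Nat.add_sub_cancel, pow_succ]; ring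
    · obtain ⟨M, rfl⟩ : ∃ M, N = M + 1 := ⟨N - 1, by omega⟩
      rw [Nat.add_sub_cancel]; ring
  have hnum : Bd (testNum K e N w v G) (2 * W * b ^ N) (F * N) := by
    unfold testNum
    have h1 := (Bd.sum' (Finset.range N) hterm).sub ((bd_natCast (R := R) v).mul hden)
    rw [zero_add, max_self, ← Finset.sum_mul] at h1
    refine h1.mono ?_ (by positivity) le_rfl
    have h2 : (∑ k ∈ Finset.range N, (w k : ℝ)) ≤ W := by exact_mod_cast hw
    have h3 : (v : ℝ) ≤ W := by exact_mod_cast hv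
    have h4 := mul_le_mul_of_nonneg_right h2 hbN
    have h5 := mul_le_mul_of_nonneg_right h3 hbN
    linarith
  unfold Crest.Agent.R316.testPoly
  have hD : Bd ((D : R) + 1) ((D : ℝ) + 1) 0 := by
    have := (bd_natCast (R := R) D).add (bd_one (R := R))
    simpa using this
  have h16 : Bd (16 : R) 16 0 := by
    have := bd_natCast (R := R) 16
    simpa using this
  have h2' : Bd (2 : R) 2 0 := by
    have := bd_natCast (R := R) 2
    simpa using this
  have hinner := (h16.mul (hnum.pow 2)).sub (h2'.mul (hden.pow 2))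
  rw [zero_add, max_self] at hinner
  have htot := (hD.mul hinner).add (bd_natCast (R := R) c₀)
  rw [zero_add, Nat.max_zero] at htot
  refine htot.mono ?_ (by positivity) le_rfl
  have hkey : 16 * (2 * (W : ℝ) * b ^ N) ^ 2 + 2 * (b ^ N) ^ 2 ≤
      18 * (2 * (W + 1) * b ^ N) ^ 2 := by
    have hW : (0 : ℝ) ≤ W := Nat.cast_nonneg _
    nlinarith [sq_nonneg (b ^ N), mul_nonneg hW (sq_nonneg (b ^ N)),
      mul_nonneg (mul_nonneg hW hW) (sq_nonneg (b ^ N))]
  have hD0 : (0 : ℝ) ≤ (D : ℝ) + 1 := by positivity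
  have := mul_le_mul_of_nonneg_left hkey hD0
  nlinarith [this]

end

end Crest.Agent.R316
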