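import Crest.Agent.R316.Num.Test
import Crest.Agent.R316.Num.PolyNu
import Crest.Agent.R316.Ana.Main

/-!
# R316 / Num / ParamsDefs : definitions shared by the parameter files (C3-C9)
-/

set_option autoImplicit false

namespace Crest.Agent.R316

open MvPolynomial

/-- configurations: the polynomial of a sentence together with a size parameter `q` -/
structure Cfg where
  q : ℕ
  n : ℕ
  [hn : NeZero n]
  f : Zxy n
  hnq : n ≤ q
  hf4 : f.totalDegree ≤ 4
  hf0 : ∀ x y : Fin n → ℝ, 0 ≤ ev2 x y f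
  hbd : Bd f (2 ^ 2 ^ q) (2 ^ q)

attribute [instance] Cfg.hn

/-- the explicit parameter point: `p_i = 2^(2^(u + i (v + 2)))` -/
def pnat (u v : ℕ) (i : Fin 5) : ℕ := 2 ^ 2 ^ (u + (i : ℕ) * (v + 2))

/-- parameters of a test from exponents -/
def mkTPar (k e t b l : ℕ) : TPar :=
  { K := 2 ^ k, e := 2 ^ (e + 1), T0 := 2 ^ 2 ^ t, B := 2 ^ b, L := 2 ^ l }

end Crest.Agent.R316
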