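import Crest.Agent.R316.Num.Growth
import Crest.Agent.R316.Num.ParamsDefs

/-!
# R316 / Num / GrowthR316 : uniform size classes of the concrete polynomials (helper251)
-/

set_option autoImplicit false

namespace Crest.Agent.R316

open MvPolynomial

/-! ### generic additions -/

theorem UB.int {ι : Type*} {q : ι → ℕ} {a : ι → ℤ} (ha : DB q fun i => |(a i : ℝ)|) :
    UB (R := fun _ : ι => ℤ) q a :=
  UB.mk ha (EB.const 0) fun i ρ _ => by
    rw [pow_zero, mul_one]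
    exact le_rfl

section
variable {ι : Type*} {q : ι → ℕ} {R : ι → Type*} [∀ i, CommRing (R i)] [∀ i, HasNu (R i)]

theorem UB.ite {P Q : ∀ i, R i} (p : ι → Prop) [DecidablePred p] (hP : UB q P) (hQ : UB q Q) :
    UB q (fun i => if p i then P i else Q i) := by
  obtain ⟨A, hA⟩ := hP
  obtain ⟨B, hB⟩ := hQ
  refine ⟨A + B, fun i => ?_⟩
  simp only [Polynomial.eval_add]
  split_ifs
  · exact (hA i).mono (dexp_mono (by omega)) (by positivity)
      (Nat.pow_le_pow_right (by norm_num) (by omega))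
  · exact (hB i).mono (dexp_mono (by omega)) (by positivity)
      (Nat.pow_le_pow_right (by norm_num) (by omega))

end

/-- evaluation of the inner coefficients at an integer point -/
theorem Bd.map_xhomZ {σ τ : Type*} {Q : MvPolynomial σ (MvPolynomial τ ℤ)} {c : ℝ} {E : ℕ}
    (h : Bd Q c E) {p : τ → ℤ} {P : ℝ} (hP : 1 ≤ P) (hp : ∀ i, |(p i : ℝ)| ≤ P) :
    Bd (map (xhom p) Q) (c * P ^ E) E := by
  classical
  intro ρ hρ
  have hP0 : 0 ≤ P := by linarith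
  have hρ0 : 0 ≤ ρ := by linarith
  have hPρ : 1 ≤ P * ρ := by nlinarith
  have hx : ∀ a : MvPolynomial τ ℤ, |((xhom p a : ℤ) : ℝ)| ≤ HasNu.nu (P * ρ) a := by
    intro a
    have h1 : ((xhom p a : ℤ) : ℝ) = aeval (fun i => ((p i : ℤ) : ℝ)) a := by
      have h2 : ((Int.castRingHom ℝ).comp (xhom p)) a = aeval (fun i => ((p i : ℤ) : ℝ)) a := by
        rw [xhom_comp]
        rfl
      exact h2
    rw [h1]
    refine abs_aeval_le_nuP a fun i => (hp i).trans ?_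
    nlinarith
  change nuP (fun a : ℤ => |(a : ℝ)|) ρ (map (xhom p) Q) ≤ _
  rw [nuP_eq_sum_of_subset isNu_abs_int ρ _ _ (support_map_subset (xhom p) Q)]
  have h3 : ∑ s ∈ Q.support,
      |((MvPolynomial.coeff s (map (xhom p) Q) : ℤ) : ℝ)| * ρ ^ (s.sum fun _ e => e) ≤
      HasNu.nu (P * ρ) Q := by
    change _ ≤ ∑ s ∈ Q.support, HasNu.nu (P * ρ) (Q.coeff s) * (P * ρ) ^ (s.sum fun _ e => e)
    refine Finset.sum_le_sum fun s _ => ?_
    rw [coeff_map]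
    refine mul_le_mul (hx _) ?_ (by positivity) ((HasNu.isNu (P * ρ) hPρ).nonneg _)
    refine pow_le_pow_left₀ hρ0 ?_ _
    nlinarith
  refine h3.trans ((h (P * ρ) hPρ).trans (le_of_eq ?_))
  rw [mul_pow]; ring

theorem UB.map_xhomZ {ι : Type*} {q : ι → ℕ} {σ τ : ι → Type*}
    {Q : ∀ i, MvPolynomial (σ i) (MvPolynomial (τ i) ℤ)} (h : UB q Q) {p : ∀ i, τ i → ℤ}
    {P : ι → ℝ} (hP : DB q P) (hp : ∀ i j, |(p i j : ℝ)| ≤ P i) :
    UB q (fun i => map (xhom (p i)) (Q i)) := by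
  obtain ⟨c, E, hc, hE, hc1, hQ⟩ := h.bd
  have hP1 : DB q (fun i => max 1 (P i)) := by
    obtain ⟨A, hA⟩ := hP
    exact ⟨A, fun i => max_le (one_le_dexp _) (hA i)⟩
  refine UB.mk (hc.mul (hP1.pow hE fun i => by positivity) (fun i => by linarith [hc1 i])
    fun i => by positivity) hE fun i => ?_
  exact (hQ i).map_xhomZ (le_max_left _ _) fun j => (hp i j).trans (le_max_right _ _)

/-! ### uniform bound and gap at solutions of integer systems -/

theorem nuP_map_cast {σ : Type*} (P : MvPolynomial σ ℤ) (ρ : ℝ) :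
    nuP (fun a : ℝ => |a|) ρ (map (Int.castRingHom ℝ) P) = nuP (fun a : ℤ => |(a : ℝ)|) ρ P := by
  classical
  rw [nuP_eq_sum_of_subset isNu_abs_real ρ _ _ (support_map_subset (Int.castRingHom ℝ) P)]
  unfold nuP
  refine Finset.sum_congr rfl fun s _ => ?_
  rw [coeff_map]
  rfl

theorem uniform_gap {ι : Type*} {q : ι → ℕ} {n m : ι → ℕ}
    {g : ∀ i, Fin (n i) → MvPolynomial (Fin (n i)) ℤ} (hn : PB q n) (hm : EB q m)
    (hg : ∀ i j, (g i j).totalDegree < m i)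
    (hgU : UB (fun x : Σ i, Fin (n i) => q x.1) (fun x => g x.1 x.2))
    {u : ∀ i, MvPolynomial (Fin (n i)) ℤ} (hu : UB q u) :
    ∃ K T : Polynomial ℕ, ∀ i, ∀ x : Fin (n i) → ℝ,
      msol (m i) (fun j => map (Int.castRingHom ℝ) (g i j)) x →
        |aeval x (u i)| ≤ 2 ^ 2 ^ K.eval (q i) ∧
        (aeval x (u i) = 0 ∨ 2 ≤ 2 ^ 2 ^ T.eval (q i) * |aeval x (u i)|) := by
  obtain ⟨A, hA⟩ := hgU
  obtain ⟨c, E, hc, hE, hc1, hP⟩ := hu.bd
  have hmn : EB q (fun i => m i ^ n i) := hm.pow hn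
  have hdeg : EB q (fun i => E i + n i * m i) := hE.add (hn.eb.mul hm)
  have hA1 : DB q (fun i => (2 : ℝ) ^ 2 ^ A.eval (q i)) := ⟨A, fun i => le_rfl⟩
  have hAi : ∀ i j, Bd (g i j) (2 ^ 2 ^ A.eval (q i)) (2 ^ A.eval (q i)) := fun i j => hA ⟨i, j⟩
  have hA0 : ∀ i j, nuP (fun a : ℤ => |(a : ℝ)|) 1 (g i j) ≤ 2 ^ 2 ^ A.eval (q i) := by
    intro i j
    have := hAi i j 1 le_rfl
    rw [one_pow, mul_one] at this
    exact this
  -- upper bound
  have hup : DB q (fun i => c i * (2 ^ 2 ^ A.eval (q i)) ^ E i) :=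
    hc.mul (hA1.pow hE fun i => by positivity) (fun i => by linarith [hc1 i])
      fun i => by positivity
  have hB : DB q (fun i => c i * (2 ^ 2 ^ A.eval (q i)) ^ (E i + n i * m i)) :=
    hc.mul (hA1.pow hdeg fun i => by positivity) (fun i => by linarith [hc1 i])
      fun i => by positivity
  have hgap : DB q (fun i => 2 * (1 + c i * (2 ^ 2 ^ A.eval (q i)) ^ (E i + n i * m i)) ^
      (m i ^ n i)) := by
    refine (DB.const 2).mul (((DB.const 1).add hB).pow hmn fun i => ?_) (fun i => by norm_num)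
      fun i => ?_
    · have := hc1 i; positivity
    · have := hc1 i; positivity
  obtain ⟨K, hK⟩ := hup
  obtain ⟨T, hT⟩ := hgap
  refine ⟨K, T, fun i x hx => ?_⟩
  have hx1 : ∀ j, |x j| ≤ 2 ^ 2 ^ A.eval (q i) := by
    intro j
    refine msol_bound (totalDegree_map_lt (Int.castRingHom ℝ) (hg i)) (one_le_dexp _) ?_ hx j
    intro j
    rw [nuP_map_cast]
    exact hA0 i j
  refine ⟨((hP i).abs_aeval_le (one_le_dexp _) hx1).trans (hK i), ?_⟩
  have hd : (u i).totalDegree ≤ E i := (hP i).totalDegree_le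
  have hc0 : 0 ≤ c i := by linarith [hc1 i]
  have hone : (1 : ℝ) ≤ (2 ^ 2 ^ A.eval (q i)) ^ (E i + n i * m i) := one_le_pow₀ (one_le_dexp _)
  have hB1 : 1 ≤ c i * (2 ^ 2 ^ A.eval (q i)) ^ (E i + n i * m i) := by
    have := hc1 i
    nlinarith
  have hu1 : nuP (fun a : ℤ => |(a : ℝ)|) 1 (u i) ≤ c i := by
    have := hP i 1 le_rfl
    rw [one_pow, mul_one] at this
    exact this
  rcases msol_gap (hg i) (one_le_dexp _) (hA0 i) (u i) hB1 (by
    refine mul_le_mul hu1 ?_ (by positivity) hc0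
    exact pow_le_pow_right₀ (one_le_dexp _) (by omega)) hx with h0 | h1
  · exact Or.inl h0
  · right
    calc (2 : ℝ) = 2 * 1 := by ring
      _ ≤ 2 * (|aeval x (u i)| * (1 + c i * (2 ^ 2 ^ A.eval (q i)) ^ (E i + n i * m i)) ^
            (m i ^ n i)) := by
          linarith
      _ = (2 * (1 + c i * (2 ^ 2 ^ A.eval (q i)) ^ (E i + n i * m i)) ^ (m i ^ n i)) *
            |aeval x (u i)| := by ring
      _ ≤ _ := mul_le_mul_of_nonneg_right (hT i) (abs_nonneg _)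

/-! ### the concrete polynomials -/

/-- the sizes of configurations -/
theorem PB_n : PB Cfg.q Cfg.n := PB.id.mono fun c => c.hnq

theorem EB_dI : EB Cfg.q (fun c => dI c.n) := by
  have h : EB Cfg.q (fun c => 3 * 5 ^ c.n + 3) :=
    ((EB.const 3).mul ((EB.const 5).pow PB_n)).add (EB.const 3)
  exact h

theorem EB_mI : EB Cfg.q (fun c => mI c.n) :=
  ((EB.const 2).mul EB_dI).mono fun c => Nat.sub_le _ _

theorem UB_f : UB (R := fun c : Cfg => Zxy c.n) Cfg.q (fun c => c.f) :=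
  ⟨Polynomial.X, fun c => by simpa using c.hbd⟩

theorem card_univ_EB {ι : Type*} {q : ι → ℕ} {n : ι → ℕ} (hn : PB q n) :
    EB q (fun i => (Finset.univ : Finset (Fin (n i))).card) := by
  simpa using hn.eb

theorem EB_nThom {ι : Type*} {q : ι → ℕ} {n m : ι → ℕ} (hn : PB q n) (hm : EB q m) :
    EB q (fun i => nThom (n i) (m i)) :=
  (EB.const 2).mul (hn.eb.mul ((hm.pow hn).add (EB.const 1)))

theorem famW_sum_le (N N1 L p a : ℕ) :
    ∑ k ∈ Finset.range N, famW N1 L p a k ≤ N * (L + p) := by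
  have h : ∀ k ∈ Finset.range N, famW N1 L p a k ≤ L + p := by
    intro k _
    unfold famW
    split_ifs
    · omega
    · have := Nat.mod_lt (a ^ (k - N1)) (show 0 < p + 1 by omega)
      omega
  refine (Finset.sum_le_sum h).trans (le_of_eq ?_)
  simp

/-- `f'` -/
theorem UB_fp : UB (R := fun c : Cfg => Zxy c.n) Cfg.q (fun c => fp c.f) := by
  unfold fp
  refine UB_f.mul (UB.pow (UB.one.add (UB.sum (UB.pow (UB.X _) (EB.const 2))
    (card_univ_EB PB_n))) ?_)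
  exact (EB.const 3).mul ((EB.const 5).pow PB_n)

section inner
variable {p1 p2 : Cfg → ℤ}

/-- the inner system -/
theorem UB_innerG (h1 : DB Cfg.q fun c => |(p1 c : ℝ)|) (h2 : DB Cfg.q fun c => |(p2 c : ℝ)|) :
    UB (R := fun x : Σ c : Cfg, Fin c.n => MvPolynomial (Fin x.1.n) (Zx x.1.n))
      (fun x => x.1.q)
      (fun x => innerG (RingHom.id (Zx x.1.n)) (C (p1 x.1)) (C (p2 x.1)) x.1.f x.2) := by
  unfold innerG
  simp only [MvPolynomial.map_id]
  refine UB.sub (UB.neg (UB.mul (UB.C (UB.mul (UB.C (UB.int ?_)) (UB.C (UB.int ?_))))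
    (UB.pderiv (UB.comp UB_fp (fun x : Σ c : Cfg, Fin c.n => x.1)) _))) UB.one
  · exact h2.comp (fun x : Σ c : Cfg, Fin c.n => x.1)
  · exact h1.comp (fun x : Σ c : Cfg, Fin c.n => x.1)

theorem UB_pen : UB (R := fun c : Cfg => MvPolynomial (Fin c.n) (Zx c.n)) Cfg.q
    (fun c => pen (Zx c.n) c.n) := by
  unfold pen
  have h1 : UB (R := fun x : Σ c : Cfg, Fin c.n => Zx x.1.n) (fun x => x.1.q)
      (fun x => 2 * (dI x.1.n : Zx x.1.n)) :=
    UB.mul (UB.ofNat 2) (UB.natCast (EB_dI.db.comp fun x : Σ c : Cfg, Fin c.n => x.1))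
  refine UB.sum ?_ (card_univ_EB PB_n)
  refine UB.add (UB.add (UB.pow (UB.X _) ?_) (UB.mul (UB.C h1) (UB.X _))) (UB.C h1)
  exact (EB.mul (EB.const 2) EB_dI).comp fun x : Σ c : Cfg, Fin c.n => x.1

/-- the inner objective -/
theorem UB_innerH (h1 : DB Cfg.q fun c => |(p1 c : ℝ)|) (h2 : DB Cfg.q fun c => |(p2 c : ℝ)|) :
    UB (R := fun c : Cfg => MvPolynomial (Fin c.n) (Zx c.n)) Cfg.q
      (fun c => innerH (RingHom.id (Zx c.n)) (C (p1 c)) (C (p2 c)) c.f) := by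
  unfold innerH
  simp only [MvPolynomial.map_id]
  refine UB.add (UB.mul (UB.C (UB.mul (UB.mul (UB.ofNat 2) (UB.natCast EB_dI.db))
    (UB.C (UB.int h2)))) (UB.sub (UB.mul (UB.C (UB.C (UB.int h1))) UB_fp) UB.one)) UB_pen

/-- the inner Thom polynomials -/
theorem UB_innerThom (h1 : DB Cfg.q fun c => |(p1 c : ℝ)|) (h2 : DB Cfg.q fun c => |(p2 c : ℝ)|) :
    UB (R := fun x : Σ c : Cfg, Fin c.n × ℕ => MvPolynomial (Fin x.1.n) (Zx x.1.n))
      (fun x => x.1.q)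
      (fun x => mthom (mI x.1.n)
        (innerG (RingHom.id (Zx x.1.n)) (C (p1 x.1)) (C (p2 x.1)) x.1.f) x.2.1 x.2.2) :=
  UB.mthom (ι := Σ c : Cfg, Fin c.n × ℕ) (n := fun x => x.1.n) (m := fun x => mI x.1.n)
    (g := fun x => innerG (RingHom.id (Zx x.1.n)) (C (p1 x.1)) (C (p2 x.1)) x.1.f)
    (PB_n.comp fun x : Σ c : Cfg, Fin c.n × ℕ => x.1)
    (EB_mI.comp fun x : Σ c : Cfg, Fin c.n × ℕ => x.1)
    (fun x => innerG_totalDegree_lt _ _ _ x.1.hf4)
    ((UB_innerG h1 h2).comp fun x : Σ y : (Σ c : Cfg, Fin c.n × ℕ), Fin y.1.n => ⟨x.1.1, x.2⟩)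
    (fun x => x.2.1) (fun x => x.2.2)

/-- the combined inner family -/
theorem UB_innerFam (h1 : DB Cfg.q fun c => |(p1 c : ℝ)|) (h2 : DB Cfg.q fun c => |(p2 c : ℝ)|)
    {T0 : Cfg → ℕ} (hT0 : DB Cfg.q fun c => (T0 c : ℝ)) :
    UB (R := fun x : Cfg × ℕ => MvPolynomial (Fin x.1.n) (Zx x.1.n))
      (fun x => x.1.q)
      (fun x => famG (mI x.1.n) (innerG (RingHom.id (Zx x.1.n)) (C (p1 x.1)) (C (p2 x.1)) x.1.f)
        1 (T0 x.1) (psiIn (RingHom.id (Zx x.1.n)) (C (p1 x.1)) (C (p2 x.1)) (T0 x.1) x.1.f)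
        x.2) := by
  unfold famG psiIn
  refine UB.ite _ (UB.sub (UB.neg (UB.mul (UB.natCast (hT0.comp fun x : Cfg × ℕ => x.1))
    ((UB_innerH h1 h2).comp fun x : Cfg × ℕ => x.1))) UB.one)
    (UB.add (UB.mul (UB.natCast (hT0.comp fun x : Cfg × ℕ => x.1)) ?_)
      (UB.ite _ UB.one (UB.neg UB.one)))
  exact (UB_innerThom h1 h2).comp fun x : Cfg × ℕ =>
    ⟨x.1, Fin.ofNat x.1.n ((x.2 - 1) / 2), (x.2 - 1) / 2 / x.1.n⟩

/-- seed polynomials of a uniform family -/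
theorem UB_seedPolyS {ι : Type*} {q : ι → ℕ} {R : ι → Type*} [∀ i, CommRing (R i)]
    [∀ i, HasNu (R i)] {n m N1 : ι → ℕ} [∀ i, NeZero (n i)]
    {g : ∀ i, Fin (n i) → MvPolynomial (Fin (n i)) (R i)} {t : ι → TPar}
    {ψ : ∀ i, ℕ → MvPolynomial (Fin (n i)) (R i)} {s : ι → ℕ}
    (hn : PB q n) (hm : EB q m) (hN1 : EB q N1)
    (hK : EB q fun i => (t i).K) (he : EB q fun i => (t i).e) (hB : EB q fun i => (t i).B)
    (hL : EB q fun i => (t i).L) (hB0 : ∀ i, 0 < (t i).B) (hL0 : ∀ i, 0 < (t i).L)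
    (hfam : UB (fun x : ι × ℕ => q x.1)
      (fun x => famG (m x.1) (g x.1) (N1 x.1) (t x.1).T0 (ψ x.1) x.2)) :
    UB q (fun i => seedPolyS (m i) (g i) (t i) (N1 i) (ψ i) (s i)) := by
  unfold seedPolyS seedPoly
  have hmn : EB q (fun i => m i ^ n i) := hm.pow hn
  have hN : EB q (fun i => N1 i + nThom (n i) (m i)) := hN1.add (EB_nThom hn hm)
  refine UB.testPoly
    (W := fun i => (N1 i + nThom (n i) (m i) + 1) * ((t i).L + 2 * (t i).B)) hfam hK he hN hmn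
    ?_ ((hN.add (EB.const 1)).mul (hL.add ((EB.const 2).mul hB))) (fun i => ?_) (fun i => ?_)
  · refine hmn.mono fun i => ?_
    exact Nat.lt_succ_iff.mp (Nat.mod_lt _ (Nat.succ_pos _))
  · refine (famW_sum_le _ _ _ _ _).trans ?_
    refine Nat.mul_le_mul (Nat.le_succ _) (Nat.add_le_add_left ?_ _)
    exact (Nat.mod_lt _ (by have := hB0 i; omega)).le
  · have h1 : (seedOf (t i).B (t i).L (m i ^ n i) (s i)).2.2.1 < (t i).L :=
      Nat.mod_lt _ (hL0 i)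
    refine h1.le.trans ?_
    calc (t i).L ≤ 1 * ((t i).L + 2 * (t i).B) := by omega
      _ ≤ _ := Nat.mul_le_mul_right _ (by omega)

/-- the inner norms -/
theorem UB_innerN (h1 : DB Cfg.q fun c => |(p1 c : ℝ)|) (h2 : DB Cfg.q fun c => |(p2 c : ℝ)|)
    {t : Cfg → TPar} (hK : EB Cfg.q fun c => (t c).K) (he : EB Cfg.q fun c => (t c).e)
    (hT0 : DB Cfg.q fun c => ((t c).T0 : ℝ)) (hB : EB Cfg.q fun c => (t c).B)
    (hL : EB Cfg.q fun c => (t c).L) (hB0 : ∀ c, 0 < (t c).B) (hL0 : ∀ c, 0 < (t c).L) :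
    UB (R := fun x : Cfg × ℕ => Zx x.1.n) (fun x => x.1.q)
      (fun x => innerN (RingHom.id (Zx x.1.n)) (C (p1 x.1)) (C (p2 x.1)) (t x.1) x.1.f x.2) := by
  have hgU : UB (R := fun x : Σ y : Cfg × ℕ, Fin y.1.n =>
      MvPolynomial (Fin x.1.1.n) (Zx x.1.1.n)) (fun x => x.1.1.q)
      (fun x => innerG (RingHom.id (Zx x.1.1.n)) (C (p1 x.1.1)) (C (p2 x.1.1)) x.1.1.f x.2) :=
    (UB_innerG h1 h2).comp fun x : Σ y : Cfg × ℕ, Fin y.1.n => ⟨x.1.1, x.2⟩
  have hfam : UB (R := fun x : (Cfg × ℕ) × ℕ => MvPolynomial (Fin x.1.1.n) (Zx x.1.1.n))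
      (fun x => x.1.1.q)
      (fun x => famG (mI x.1.1.n)
        (innerG (RingHom.id (Zx x.1.1.n)) (C (p1 x.1.1)) (C (p2 x.1.1)) x.1.1.f)
        1 (t x.1.1).T0
        (psiIn (RingHom.id (Zx x.1.1.n)) (C (p1 x.1.1)) (C (p2 x.1.1)) (t x.1.1).T0 x.1.1.f)
        x.2) := (UB_innerFam h1 h2 hT0).comp fun x : (Cfg × ℕ) × ℕ => (x.1.1, x.2)
  have hseed : UB (R := fun x : Cfg × ℕ => MvPolynomial (Fin x.1.n) (Zx x.1.n)) (fun x => x.1.q)
      (fun x => seedPolyS (mI x.1.n)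
        (innerG (RingHom.id (Zx x.1.n)) (C (p1 x.1)) (C (p2 x.1)) x.1.f) (t x.1) 1
        (psiIn (RingHom.id (Zx x.1.n)) (C (p1 x.1)) (C (p2 x.1)) (t x.1).T0 x.1.f) x.2) :=
    UB_seedPolyS (ι := Cfg × ℕ) (R := fun x => Zx x.1.n) (n := fun x => x.1.n)
      (m := fun x => mI x.1.n)
      (g := fun x => innerG (RingHom.id (Zx x.1.n)) (C (p1 x.1)) (C (p2 x.1)) x.1.f)
      (t := fun x => t x.1)
      (ψ := fun x => psiIn (RingHom.id (Zx x.1.n)) (C (p1 x.1)) (C (p2 x.1)) (t x.1).T0 x.1.f)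
      (N1 := fun _ => 1) (s := fun x => x.2)
      (PB_n.comp fun x : Cfg × ℕ => x.1) (EB_mI.comp fun x : Cfg × ℕ => x.1)
      (EB.const 1) (hK.comp fun x : Cfg × ℕ => x.1) (he.comp fun x : Cfg × ℕ => x.1)
      (hB.comp fun x : Cfg × ℕ => x.1) (hL.comp fun x : Cfg × ℕ => x.1) (fun x => hB0 x.1)
      (fun x => hL0 x.1) hfam
  unfold innerN
  exact UB.mnorm (ι := Cfg × ℕ) (R := fun x => Zx x.1.n) (n := fun x => x.1.n)
    (m := fun x => mI x.1.n)
    (g := fun x => innerG (RingHom.id (Zx x.1.n)) (C (p1 x.1)) (C (p2 x.1)) x.1.f)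
    (PB_n.comp fun x : Cfg × ℕ => x.1) (EB_mI.comp fun x : Cfg × ℕ => x.1)
    (fun x => innerG_totalDegree_lt _ _ _ x.1.hf4) hgU hseed

end inner

end Crest.Agent.R316
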