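import Crest.Agent.R316.Num.ParamsDefs
import Crest.Agent.R316.Num.GrowthR316

/-!
# R316 / Num / ParamsOut (C8)
-/

set_option autoImplicit false

namespace Crest.Agent.R316

open MvPolynomial

theorem DB_pnat (u v : Polynomial ℕ) (i : Fin 5) :
    DB Cfg.q (fun c => |(((pnat (u.eval c.q) (v.eval c.q) i : ℕ) : ℤ) : ℝ)|) := by
  refine ⟨u + Polynomial.C (i : ℕ) * (v + 2), fun c => le_of_eq ?_⟩
  change |(((pnat (u.eval c.q) (v.eval c.q) i : ℕ) : ℤ) : ℝ)| = _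
  rw [Int.cast_natCast, abs_of_nonneg (Nat.cast_nonneg _)]
  unfold pnat
  simp

theorem EB_outM (a : Polynomial ℕ) : EB Cfg.q (fun c => 2 * 2 ^ (a.eval c.q + 1) - 1) :=
  ((EB.const 2).mul ((PB.eval a).add (PB.const 1)).two_pow).mono fun _ => Nat.sub_le _ _

/-- the outer system over `ℤ` -/
theorem UB_gO {a : Polynomial ℕ}
    (ha : ∀ c : Cfg, Bd (outQ c.f) (2 ^ 2 ^ a.eval c.q) (2 ^ a.eval c.q))
    {p : Cfg → Fin 5 → ℤ} (hp : ∀ i, DB Cfg.q fun c => |(p c i : ℝ)|) :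
    UB (R := fun x : Σ c : Cfg, Fin c.n => MvPolynomial (Fin x.1.n) ℤ) (fun x => x.1.q)
      (fun x => gO (p x.1) x.1.f x.2) := by
  have hQ : UB (R := fun c : Cfg => MvPolynomial (Fin c.n) PP) Cfg.q (fun c => outQ c.f) := ⟨a, ha⟩
  have hsum : DB Cfg.q (fun c => ∑ j, |(p c j : ℝ)|) := by
    simp only [Fin.sum_univ_five]
    exact ((((hp 0).add (hp 1)).add (hp 2)).add (hp 3)).add (hp 4)
  have hQO : UB (R := fun c : Cfg => MvPolynomial (Fin c.n) ℤ) Cfg.q (fun c => QO (p c) c.f) :=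
    hQ.map_xhomZ hsum fun c j =>
      Finset.single_le_sum (f := fun j => |(p c j : ℝ)|) (fun _ _ => abs_nonneg _)
        (Finset.mem_univ j)
  simp only [gO_eq]
  refine UB.sub (UB.mul (UB.C (UB.mul (UB.int ?_) (UB.int ?_))) (UB.pderiv (UB.pow
    (hQO.comp fun x : Σ c : Cfg, Fin c.n => x.1) (EB.const 2)) _)) (UB.C (UB.int ?_))
  · exact (hp 4).comp fun x : Σ c : Cfg, Fin c.n => x.1
  · exact (hp 3).comp fun x : Σ c : Cfg, Fin c.n => x.1
  · exact (hp 4).comp fun x : Σ c : Cfg, Fin c.n => x.1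

theorem outQ_totalDegree_lt {a : Polynomial ℕ}
    (ha : ∀ c : Cfg, Bd (outQ c.f) (2 ^ 2 ^ a.eval c.q) (2 ^ a.eval c.q)) (c : Cfg) :
    (outQ c.f).totalDegree < 2 ^ (a.eval c.q + 1) := by
  refine lt_of_le_of_lt (ha c).totalDegree_le' ?_
  exact Nat.pow_lt_pow_right (by norm_num) (by omega)

theorem gO_cast {n : ℕ} (p : Fin 5 → ℤ) (f : Zxy n) (i : Fin n) :
    map (Int.castRingHom ℝ) (gO p f i) = gO (fun j => ((p j : ℤ) : ℝ)) f i := by
  unfold gO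
  rw [map_map, xhom_comp]
  rfl

theorem eval_map_cast {n : ℕ} (x : Fin n → ℝ) (u : MvPolynomial (Fin n) ℤ) :
    eval x (map (Int.castRingHom ℝ) u) = aeval x u := by
  rw [eval_map, aeval_def]
  rfl

theorem abs_sub_one_ge {T w : ℝ} (h : w = 0 ∨ 2 ≤ T * |w|) (hT : 0 ≤ T) :
    1 ≤ |T * w - 1| ∧ 1 ≤ |T * w + 1| := by
  rcases h with h | h
  · subst h; simp
  · have h1 : 2 ≤ |T * w| := by rwa [abs_mul, abs_of_nonneg hT]
    have h2 : |T * w| ≤ |T * w - 1| + 1 := by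
      calc |T * w| = |(T * w - 1) + 1| := by rw [sub_add_cancel]
        _ ≤ |T * w - 1| + |(1 : ℝ)| := abs_add_le _ _
        _ = _ := by rw [abs_one]
    have h3 : |T * w| ≤ |T * w + 1| + 1 := by
      calc |T * w| = |(T * w + 1) + (-1)| := by ring_nf
        _ ≤ |T * w + 1| + |(-1 : ℝ)| := abs_add_le _ _
        _ = _ := by rw [abs_neg, abs_one]
    constructor <;> linarith

theorem abs_sub_one_le {T w : ℝ} (hT : 0 ≤ T) :
    |T * w - 1| ≤ T * |w| + 1 ∧ |T * w + 1| ≤ T * |w| + 1 := by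
  have h : |T * w| = T * |w| := by rw [abs_mul, abs_of_nonneg hT]
  constructor
  · refine (abs_sub _ _).trans ?_
    rw [h, abs_one]
  · refine (abs_add_le _ _).trans ?_
    rw [h, abs_one]

/-- (C8) robustness of the outer test -/
theorem exists_outer_robust (a u v k e t b l : Polynomial ℕ)
    (ha : ∀ c : Cfg, Bd (outQ c.f) (2 ^ 2 ^ a.eval c.q) (2 ^ a.eval c.q)) :
    ∃ k' t' : Polynomial ℕ, ∀ c : Cfg, ∀ T : TPar,
      T = mkTPar (k.eval c.q) (e.eval c.q) (t.eval c.q) (b.eval c.q) (l.eval c.q) →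
      ∀ T' : TPar, T'.K = 2 ^ k'.eval c.q → T'.T0 = 2 ^ 2 ^ t'.eval c.q →
      Robust (2 * 2 ^ (a.eval c.q + 1) - 1)
        (gO (fun i => (pnat (u.eval c.q) (v.eval c.q) i : ℝ)) c.f) T'.K
        (nOut c.n T) T'.T0
        (fun j => map (Int.castRingHom ℝ)
          (psiOut (fun i => (pnat (u.eval c.q) (v.eval c.q) i : ℤ)) T T' c.f j)) := by
  -- abbreviations
  set p : Cfg → Fin 5 → ℤ := fun c i => ((pnat (u.eval c.q) (v.eval c.q) i : ℕ) : ℤ) with hpdef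
  have hp : ∀ i, DB Cfg.q fun c => |(p c i : ℝ)| := fun i => DB_pnat u v i
  set tt : Cfg → TPar := fun c =>
    mkTPar (k.eval c.q) (e.eval c.q) (t.eval c.q) (b.eval c.q) (l.eval c.q) with htt
  set m : Cfg → ℕ := fun c => 2 * 2 ^ (a.eval c.q + 1) - 1 with hm
  have hmEB : EB Cfg.q m := EB_outM a
  have hg : ∀ (c : Cfg) j, (gO (p c) c.f j).totalDegree < m c := fun c =>
    gO_totalDegree_lt (p c) (outQ_totalDegree_lt ha c)
  have hgU := UB_gO ha hp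
  -- the three families
  have hu0 : UB (R := fun c : Cfg => MvPolynomial (Fin c.n) ℤ) Cfg.q
      (fun c => C (p c 0 ^ 2) - ∑ i, X i ^ 2) := by
    refine UB.sub (UB.C (UB.pow (UB.int (hp 0)) (EB.const 2))) (UB.sum (UB.pow (UB.X _)
      (EB.const 2)) (card_univ_EB PB_n))
  have hu1 : UB (R := fun x : Cfg × ℕ => Zx x.1.n) (fun x => x.1.q)
      (fun x => innerN (RingHom.id (Zx x.1.n)) (C (p x.1 1)) (C (p x.1 2)) (tt x.1) x.1.f
        x.2) := by
    refine UB_innerN (p1 := fun c => p c 1) (p2 := fun c => p c 2) (hp 1) (hp 2) (t := tt)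
      (PB.eval k).two_pow ((PB.eval e).add (PB.const 1)).two_pow ⟨t, fun c => ?_⟩
      (PB.eval b).two_pow (PB.eval l).two_pow (fun c => ?_) (fun c => ?_)
    · simp [htt, mkTPar]
    · simp [htt, mkTPar]
    · simp [htt, mkTPar]
  have hu2 : UB (R := fun x : Σ c : Cfg, Fin c.n × ℕ => MvPolynomial (Fin x.1.n) ℤ)
      (fun x => x.1.q) (fun x => mthom (m x.1) (gO (p x.1) x.1.f) x.2.1 x.2.2) :=
    UB.mthom (ι := Σ c : Cfg, Fin c.n × ℕ) (R := fun _ => ℤ) (n := fun x => x.1.n)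
      (m := fun x => m x.1) (g := fun x => gO (p x.1) x.1.f)
      (PB_n.comp fun x : Σ c : Cfg, Fin c.n × ℕ => x.1)
      (hmEB.comp fun x : Σ c : Cfg, Fin c.n × ℕ => x.1) (fun x => hg x.1)
      (hgU.comp fun x : Σ y : (Σ c : Cfg, Fin c.n × ℕ), Fin y.1.n => ⟨x.1.1, x.2⟩)
      (fun x => x.2.1) (fun x => x.2.2)
  obtain ⟨K0, T0, H0⟩ := uniform_gap (ι := Cfg) (n := fun c => c.n) (m := m)
    (g := fun c => gO (p c) c.f) PB_n hmEB hg hgU hu0
  obtain ⟨K1, T1, H1⟩ := uniform_gap (ι := Cfg × ℕ) (n := fun x => x.1.n) (m := fun x => m x.1)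
    (g := fun x => gO (p x.1) x.1.f) (PB_n.comp fun x : Cfg × ℕ => x.1)
    (hmEB.comp fun x : Cfg × ℕ => x.1) (fun x => hg x.1)
    (hgU.comp fun x : Σ y : Cfg × ℕ, Fin y.1.n => ⟨x.1.1, x.2⟩) hu1
  obtain ⟨K2, T2, H2⟩ := uniform_gap (ι := Σ c : Cfg, Fin c.n × ℕ) (n := fun x => x.1.n)
    (m := fun x => m x.1) (g := fun x => gO (p x.1) x.1.f)
    (PB_n.comp fun x : Σ c : Cfg, Fin c.n × ℕ => x.1)
    (hmEB.comp fun x : Σ c : Cfg, Fin c.n × ℕ => x.1) (fun x => hg x.1)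
    (hgU.comp fun x : Σ y : (Σ c : Cfg, Fin c.n × ℕ), Fin y.1.n => ⟨x.1.1, x.2⟩) hu2
  refine ⟨T0 + T1 + T2 + (K0 + K1 + K2) + 2, T0 + T1 + T2, ?_⟩
  rintro c T rfl T' hK' hT'
  -- common facts
  have hTr : (T'.T0 : ℝ) = 2 ^ 2 ^ (T0 + T1 + T2).eval c.q := by rw [hT']; push_cast; rfl
  have hT0 : (0 : ℝ) ≤ (T'.T0 : ℝ) := Nat.cast_nonneg _
  have hKr : (2 : ℝ) ^ T'.K = 2 ^ 2 ^ (T0 + T1 + T2 + (K0 + K1 + K2) + 2).eval c.q := by
    rw [hK']
  have key : ∀ (Kj Tj : ℕ) (w : ℝ), Kj ≤ (K0 + K1 + K2).eval c.q →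
      Tj ≤ (T0 + T1 + T2).eval c.q → |w| ≤ 2 ^ 2 ^ Kj → (w = 0 ∨ 2 ≤ 2 ^ 2 ^ Tj * |w|) →
      (w = 0 ∨ 2 ≤ (T'.T0 : ℝ) * |w|) ∧ (T'.T0 : ℝ) * |w| + 1 ≤ 2 ^ T'.K := by
    intro Kj Tj w hKj hTj hw hw'
    have hfirst : (2 : ℝ) ^ 2 ^ Tj * |w| ≤ (T'.T0 : ℝ) * |w| := by
      rw [hTr]
      exact mul_le_mul_of_nonneg_right (dexp_mono hTj) (abs_nonneg _)
    refine ⟨hw'.imp_right fun h => h.trans hfirst, ?_⟩
    · rw [hKr, hTr]
      set A := (T0 + T1 + T2).eval c.q with hA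
      have h1 : (2 : ℝ) ^ 2 ^ A * |w| ≤ 2 ^ 2 ^ (A + Kj + 1) :=
        (mul_le_mul_of_nonneg_left hw (by positivity)).trans (dexp_mul_le _ _)
      have h2 : (2 : ℝ) ^ 2 ^ A * |w| + 1 ≤ 2 ^ 2 ^ (A + Kj + 1 + 0 + 1) := by
        refine le_trans ?_ (dexp_add_le _ 0)
        refine add_le_add h1 (one_le_dexp 0)
      refine h2.trans (dexp_mono ?_)
      have h3 : (T0 + T1 + T2 + (K0 + K1 + K2) + 2).eval c.q =
          A + (K0 + K1 + K2).eval c.q + 2 := by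
        rw [Polynomial.eval_add, Polynomial.eval_add, ← hA]
        simp
      rw [h3]
      omega
  have hgO : gO (fun i => (pnat (u.eval c.q) (v.eval c.q) i : ℝ)) c.f =
      fun i => map (Int.castRingHom ℝ) (gO (p c) c.f i) := by
    funext i
    rw [gO_cast]
    congr 1
  rw [hgO]
  refine ⟨fun x hx j hj => ?_, fun x hx i l' _ => ?_⟩
  · rw [eval_map_cast]
    unfold psiOut
    by_cases hj0 : j = 0
    · rw [if_pos hj0]
      have h := H0 c x hx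
      obtain ⟨a1, a2⟩ := key (K0.eval c.q) (T0.eval c.q) _ (by
        simp only [Polynomial.eval_add]; omega) (by
        simp only [Polynomial.eval_add]; omega) h.1 h.2
      have h5 : aeval x ((T'.T0 : Zx c.n) * (C (p c 0 ^ 2) - ∑ i, X i ^ 2) - 1) =
          (T'.T0 : ℝ) * aeval x (C (p c 0 ^ 2) - ∑ i, X i ^ 2 : MvPolynomial (Fin c.n) ℤ) - 1 := by
        rw [map_sub, map_mul, map_natCast, map_one]
      rw [h5]
      exact ⟨(abs_sub_one_ge a1 hT0).1, (abs_sub_one_le hT0).1.trans a2⟩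
    · rw [if_neg hj0]
      have h := H1 (c, j - 1) x hx
      obtain ⟨a1, a2⟩ := key (K1.eval c.q) (T1.eval c.q) _ (by
        simp only [Polynomial.eval_add]; omega) (by
        simp only [Polynomial.eval_add]; omega) h.1 h.2
      have h5 : aeval x ((T'.T0 : Zx c.n) * innerN (RingHom.id (Zx c.n)) (C (p c 1)) (C (p c 2))
          (tt c) c.f (j - 1) + 1) =
          (T'.T0 : ℝ) * aeval x (innerN (RingHom.id (Zx c.n)) (C (p c 1)) (C (p c 2))
          (tt c) c.f (j - 1)) + 1 := by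
        rw [map_add, map_mul, map_natCast, map_one]
      refine ⟨?_, ?_⟩
      · exact (abs_sub_one_ge a1 hT0).2.trans_eq (by rw [← h5])
      · exact (le_of_eq (by rw [← h5])).trans ((abs_sub_one_le hT0).2.trans a2)
  · have h := H2 ⟨c, (i, l')⟩ x hx
    have h5 : eval x (mthom (m c) (fun i => map (Int.castRingHom ℝ) (gO (p c) c.f i)) i l') =
        aeval x (mthom (m c) (gO (p c) c.f) i l') := by
      rw [mthom_map (Int.castRingHom ℝ) (hg c), eval_map_cast]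
    have h6 := key (K2.eval c.q) (T2.eval c.q) _ (by
        simp only [Polynomial.eval_add]; omega) (by
        simp only [Polynomial.eval_add]; omega) h.1 h.2
    rw [← h5] at h6
    exact h6

end Crest.Agent.R316
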