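import Crest.Agent.R316.Num.Growth
import Crest.Agent.R316.Ana.Spec

/-!
# R316 / Num / SpecBd (helper18)
* specialisation of size classes at integer points;
* uniform bounds and gaps at real solutions of families of integer monic systems
  (`uniform_msol`), and of two-level systems (`uniform_msol₂`).
-/

set_option autoImplicit false

namespace Crest.Agent.R316

open MvPolynomial

/-! ### specialisation -/

theorem xhom_eq_aeval {σ : Type*} (x : σ → ℝ) (P : MvPolynomial σ ℤ) : xhom x P = aeval x P := by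
  unfold xhom
  rw [aeval_def]
  rfl

theorem Bd.abs_xhom_le {σ : Type*} {P : MvPolynomial σ ℤ} {c : ℝ} {E : ℕ} (h : Bd P c E)
    {ρ : ℝ} (hρ : 1 ≤ ρ) {x : σ → ℝ} (hx : ∀ i, |x i| ≤ ρ) : |xhom x P| ≤ c * ρ ^ E := by
  rw [xhom_eq_aeval]
  exact h.abs_aeval_le hρ hx

theorem cast_xhom {σ : Type*} (p : σ → ℤ) (P : MvPolynomial σ ℤ) :
    ((xhom p P : ℤ) : ℝ) = xhom (fun i => (p i : ℝ)) P := by
  have := RingHom.congr_fun (xhom_comp (Int.castRingHom ℝ) p) P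
  simpa using this

/-- specialisation of the inner variables at an integer point -/
theorem Bd.map_xhom {σ τ : Type*} {P : MvPolynomial σ (MvPolynomial τ ℤ)} {c : ℝ} {E : ℕ}
    (h : Bd P c E) {p : τ → ℤ} {ρ : ℝ} (hρ : 1 ≤ ρ) (hp : ∀ i, |(p i : ℝ)| ≤ ρ) :
    Bd (map (xhom p) P : MvPolynomial σ ℤ) (c * ρ ^ E) E := by
  intro ρ' hρ'
  have hρρ : 1 ≤ ρ * ρ' := one_le_mul_of_one_le_of_one_le hρ hρ'
  have h1 := h (ρ * ρ') hρρ
  have h2 : HasNu.nu ρ' (map (xhom p) P : MvPolynomial σ ℤ) ≤ HasNu.nu (ρ * ρ') P := by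
    change nuP (fun a : ℤ => |(a : ℝ)|) ρ' (map (xhom p) P) ≤
      nuP (nuP (fun a : ℤ => |(a : ℝ)|) (ρ * ρ')) (ρ * ρ') P
    rw [nuP_eq_sum_of_subset isNu_abs_int ρ' _ P.support (MvPolynomial.support_map_subset _ _)]
    unfold nuP
    refine Finset.sum_le_sum fun s _ => ?_
    rw [coeff_map]
    refine mul_le_mul ?_ (pow_le_pow_left₀ (by linarith) ?_ _) (by positivity)
      (nuP_nonneg isNu_abs_int (by linarith) _)
    · rw [cast_xhom, xhom_eq_aeval]
      refine abs_aeval_le_nuP _ fun i => (hp i).trans ?_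
      exact le_mul_of_one_le_right (by linarith) hρ'
    · exact le_mul_of_one_le_left (by linarith) hρ
  refine h2.trans (h1.trans (le_of_eq ?_))
  rw [mul_pow]
  ring

/-- integer to real coefficients -/
theorem nuP_map_real_le {σ : Type*} (P : MvPolynomial σ ℤ) (ρ : ℝ) :
    nuP (fun a : ℝ => |a|) ρ (map (Int.castRingHom ℝ) P) ≤ nuP (fun a : ℤ => |(a : ℝ)|) ρ P := by
  rw [nuP_eq_sum_of_subset isNu_abs_real ρ _ P.support (MvPolynomial.support_map_subset _ _)]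
  unfold nuP
  refine Finset.sum_le_sum fun s _ => ?_
  rw [coeff_map]
  simp

theorem Bd.nuP_le {σ : Type*} {P : MvPolynomial σ ℤ} {c : ℝ} {E : ℕ} (h : Bd P c E) :
    nuP (fun a : ℤ => |(a : ℝ)|) 1 P ≤ c := by
  have h1 := h 1 le_rfl
  rw [one_pow, mul_one] at h1
  exact h1

theorem Bd.nuP_real_le {σ : Type*} {P : MvPolynomial σ ℤ} {c : ℝ} {E : ℕ} (h : Bd P c E) :
    nuP (fun a : ℝ => |a|) 1 (map (Int.castRingHom ℝ) P) ≤ c :=
  (nuP_map_real_le P 1).trans h.nuP_le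

/-! ### uniform bounds and gaps at solutions of integer systems -/

section uniform

variable {ι : Type*} {q : ι → ℕ} {n m : ι → ℕ}
  {g : ∀ i, Fin (n i) → MvPolynomial (Fin (n i)) ℤ}

/-- coordinates of real solutions -/
theorem uniform_msol_coord (hg : ∀ i j, (g i j).totalDegree < m i)
    (hgU : UB (fun x : Σ i, Fin (n i) => q x.1) (fun x => g x.1 x.2)) :
    ∃ A : Polynomial ℕ, ∀ i, ∀ x : Fin (n i) → ℝ,
      msol (m i) (fun j => map (Int.castRingHom ℝ) (g i j)) x → ∀ j, |x j| ≤ 2 ^ 2 ^ A.eval (q i) := by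
  obtain ⟨A, hA⟩ := hgU
  refine ⟨A, fun i x hx j => ?_⟩
  refine msol_bound (totalDegree_map_lt (Int.castRingHom ℝ) (hg i)) (one_le_dexp _) ?_ hx j
  intro k
  exact (hA ⟨i, k⟩).nuP_real_le

/-- **uniform bound and gap** at real solutions of integer monic systems -/
theorem uniform_msol (hn : PB q n) (hm : EB q m) (hg : ∀ i j, (g i j).totalDegree < m i)
    (hgU : UB (fun x : Σ i, Fin (n i) => q x.1) (fun x => g x.1 x.2))
    {κ : ι → Type*} {P : ∀ i, κ i → MvPolynomial (Fin (n i)) ℤ}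
    (hP : UB (fun x : Σ i, κ i => q x.1) (fun x => P x.1 x.2)) :
    ∃ A : Polynomial ℕ, ∀ i, ∀ x : Fin (n i) → ℝ,
      msol (m i) (fun j => map (Int.castRingHom ℝ) (g i j)) x → ∀ k,
        |xhom x (P i k)| ≤ 2 ^ 2 ^ A.eval (q i) ∧
          (xhom x (P i k) = 0 ∨ 1 ≤ |xhom x (P i k)| * 2 ^ 2 ^ A.eval (q i)) := by
  obtain ⟨A0, hA0⟩ := uniform_msol_coord hg hgU
  obtain ⟨A1, hA1⟩ := hgU
  obtain ⟨A2, hA2⟩ := hP
  have hD1 : DB q (fun i => (2 : ℝ) ^ 2 ^ A1.eval (q i)) := ⟨A1, fun i => le_rfl⟩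
  have hD2 : DB q (fun i => (2 : ℝ) ^ 2 ^ A2.eval (q i)) := ⟨A2, fun i => le_rfl⟩
  have hD0 : DB q (fun i => (2 : ℝ) ^ 2 ^ A0.eval (q i)) := ⟨A0, fun i => le_rfl⟩
  have hE2 : EB q (fun i => 2 ^ A2.eval (q i)) := ⟨A2, fun i => le_rfl⟩
  -- upper bound
  have hup : DB q (fun i => (2 : ℝ) ^ 2 ^ A2.eval (q i) *
      (2 ^ 2 ^ A0.eval (q i)) ^ (2 ^ A2.eval (q i))) :=
    hD2.mul (hD0.pow hE2 fun i => by positivity) (fun i => by positivity) fun i => by positivity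
  -- gap
  have hgap : DB q (fun i => (1 + (2 : ℝ) ^ 2 ^ A2.eval (q i) *
      (2 ^ 2 ^ A1.eval (q i)) ^ (2 ^ A2.eval (q i) + n i * m i)) ^ (m i ^ n i)) :=
    ((DB.const 1).add (hD2.mul (hD1.pow (hE2.add (hn.eb.mul hm)) fun i => by positivity)
      (fun i => by positivity) fun i => by positivity)).pow (hm.pow hn) fun i => by positivity
  obtain ⟨B1, hB1⟩ := hup
  obtain ⟨B2, hB2⟩ := hgap
  refine ⟨B1 + B2, fun i x hx k => ⟨?_, ?_⟩⟩
  · refine ((hA2 ⟨i, k⟩).abs_xhom_le (one_le_dexp _) (hA0 i x hx)).trans ?_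
    refine (hB1 i).trans (dexp_mono ?_)
    rw [Polynomial.eval_add]
    omega
  · rw [xhom_eq_aeval]
    have hd : (P i k).totalDegree ≤ 2 ^ A2.eval (q i) := (hA2 ⟨i, k⟩).totalDegree_le
    have hone : (1 : ℝ) ≤ 2 ^ 2 ^ A2.eval (q i) *
        (2 ^ 2 ^ A1.eval (q i)) ^ (2 ^ A2.eval (q i) + n i * m i) :=
      one_le_mul_of_one_le_of_one_le (one_le_dexp _) (one_le_pow₀ (one_le_dexp _))
    have hu : nuP (fun a : ℤ => |(a : ℝ)|) 1 (P i k) *
        ((2 : ℝ) ^ 2 ^ A1.eval (q i)) ^ ((P i k).totalDegree + n i * m i) ≤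
        2 ^ 2 ^ A2.eval (q i) * (2 ^ 2 ^ A1.eval (q i)) ^ (2 ^ A2.eval (q i) + n i * m i) := by
      refine mul_le_mul (hA2 ⟨i, k⟩).nuP_le ?_ (by positivity) (by positivity)
      exact pow_le_pow_right₀ (one_le_dexp _) (by omega)
    rcases msol_gap (hg i) (one_le_dexp (A1.eval (q i))) (fun j => (hA1 ⟨i, j⟩).nuP_le) (P i k)
      hone hu hx with h0 | h0
    · exact Or.inl h0
    · refine Or.inr (h0.trans ?_)
      refine mul_le_mul_of_nonneg_left ((hB2 i).trans (dexp_mono ?_)) (abs_nonneg _)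
      rw [Polynomial.eval_add]
      omega

/-- coefficients of characteristic polynomials -/
theorem UB.mcp_coeff {R : ι → Type*} [∀ i, CommRing (R i)] [∀ i, HasNu (R i)]
    [∀ i, GoodNu (R i)] {n' m' : ι → ℕ} (hn' : PB q n') (hm' : EB q m')
    {g' : ∀ i, Fin (n' i) → MvPolynomial (Fin (n' i)) (R i)}
    (hg' : ∀ i j, (g' i j).totalDegree < m' i)
    (hgU' : UB (fun x : Σ i, Fin (n' i) => q x.1) (fun x => g' x.1 x.2))
    {κ : ι → Type*} {P : ∀ i, κ i → MvPolynomial (Fin (n' i)) (R i)}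
    (hP : UB (fun x : Σ i, κ i => q x.1) (fun x => P x.1 x.2)) :
    UB (fun x : Σ i, κ i × ℕ => q x.1)
      (fun x => (mcp (m' x.1) (g' x.1) (P x.1 x.2.1)).coeff x.2.2) := by
  obtain ⟨A1, hA1⟩ := hgU'
  obtain ⟨A2, hA2⟩ := hP
  have hD1 : DB q (fun i => (2 : ℝ) ^ 2 ^ A1.eval (q i)) := ⟨A1, fun i => le_rfl⟩
  have hD2 : DB q (fun i => (2 : ℝ) ^ 2 ^ A2.eval (q i)) := ⟨A2, fun i => le_rfl⟩
  have hE1 : EB q (fun i => 2 ^ A1.eval (q i)) := ⟨A1, fun i => le_rfl⟩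
  have hE2 : EB q (fun i => 2 ^ A2.eval (q i)) := ⟨A2, fun i => le_rfl⟩
  have hmn : EB q (fun i => m' i ^ n' i) := hm'.pow hn'
  have hc : DB q (fun i => (((2 : ℝ) ^ 2 ^ A2.eval (q i) + 1) *
      (2 ^ 2 ^ A1.eval (q i)) ^ (2 ^ A2.eval (q i) + n' i * m' i)) ^ (m' i ^ n' i)) :=
    ((hD2.add (DB.const 1)).mul (hD1.pow (hE2.add (hn'.eb.mul hm')) fun i => by positivity)
      (fun i => by positivity) fun i => by positivity).pow hmn fun i => by positivity
  have hE : EB q (fun i => (2 ^ A2.eval (q i) + 1 +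
      2 ^ A1.eval (q i) * (2 ^ A2.eval (q i) + n' i * m' i)) * m' i ^ n' i) :=
    ((hE2.add (EB.const 1)).add (hE1.mul (hE2.add (hn'.eb.mul hm')))).mul hmn
  refine UB.mk (hc.comp (fun x : Σ i, κ i × ℕ => x.1))
    (hE.comp (fun x : Σ i, κ i × ℕ => x.1)) fun x => ?_
  obtain ⟨i, k, j⟩ := x
  have hAi : ∀ j, Bd (g' i j) (2 ^ 2 ^ A1.eval (q i)) (2 ^ A1.eval (q i)) :=
    fun j => hA1 ⟨i, j⟩
  have hPk : Bd (P i k) (2 ^ 2 ^ A2.eval (q i)) (2 ^ A2.eval (q i)) := hA2 ⟨i, k⟩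
  have hd : (P i k).totalDegree ≤ 2 ^ A2.eval (q i) := hPk.totalDegree_le'
  have hb := (Bd.mcp (hg' i) (one_le_dexp _) hAi hPk).polyCoeff j
  show Bd ((mcp (m' i) (g' i) (P i k)).coeff j) ((((2 : ℝ) ^ 2 ^ A2.eval (q i) + 1) *
      (2 ^ 2 ^ A1.eval (q i)) ^ (2 ^ A2.eval (q i) + n' i * m' i)) ^ (m' i ^ n' i))
      ((2 ^ A2.eval (q i) + 1 +
      2 ^ A1.eval (q i) * (2 ^ A2.eval (q i) + n' i * m' i)) * m' i ^ n' i)
  refine hb.mono ?_ (by positivity) ?_
  · refine pow_le_pow_left₀ (by positivity) ?_ _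
    refine mul_le_mul_of_nonneg_left ?_ (by positivity)
    exact pow_le_pow_right₀ (one_le_dexp _) (by omega)
  · refine Nat.mul_le_mul_right _ ?_
    refine Nat.add_le_add_left (Nat.mul_le_mul_left _ (by omega)) _

/-- root bound and gap, with one constant -/
theorem root_bound_gap {Q : Polynomial ℝ} (hQ : Q.Monic) {D : ℝ} (hD : 1 ≤ D)
    (hup : ∀ j, |Q.coeff j| ≤ D) (hlow : ∀ j, Q.coeff j = 0 ∨ 1 ≤ |Q.coeff j| * D) {w : ℝ}
    (hw : Q.eval w = 0) :
    |w| ≤ D * ((Q.natDegree : ℝ) + 1) * D + 1 ∧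
      (w = 0 ∨ 1 ≤ |w| * (D * ((Q.natDegree : ℝ) + 1) * D + 1)) := by
  have hDpos : 0 < D := by linarith
  have hmpos : (0 : ℝ) ≤ Q.natDegree := Nat.cast_nonneg _
  constructor
  · have := abs_root_le_of_coeff_bound hQ hDpos.le hup hw
    refine this.trans ?_
    nlinarith [mul_nonneg hDpos.le hmpos, mul_nonneg (mul_nonneg hDpos.le hmpos) hDpos.le]
  · have hlow' : ∀ j, Q.coeff j = 0 ∨ D⁻¹ ≤ |Q.coeff j| := fun j => by
      refine (hlow j).imp id fun h => ?_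
      rw [inv_le_iff_one_le_mul₀ hDpos]
      exact h
    rcases root_gap hQ.ne_zero (inv_pos.2 hDpos) (inv_le_one_of_one_le₀ hD) hD hlow' hup hw
      with h0 | h0
    · exact Or.inl h0
    · right
      rw [inv_le_iff_one_le_mul₀ hDpos] at h0
      refine h0.trans ?_
      have e : |w| * (((Q.natDegree : ℝ) + 1) * D) * D =
          |w| * (D * ((Q.natDegree : ℝ) + 1) * D) := by ring
      rw [e]
      refine mul_le_mul_of_nonneg_left ?_ (abs_nonneg _)
      linarith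

/-- **uniform bound and gap for two-level systems**: values at real solutions `y` of an inner
monic system with coefficients in `ℤ[x]`, specialised at a real solution `x` of an outer integer
monic system. -/
theorem uniform_msol₂ (hn : PB q n) (hm : EB q m) (hg : ∀ i j, (g i j).totalDegree < m i)
    (hgU : UB (fun x : Σ i, Fin (n i) => q x.1) (fun x => g x.1 x.2))
    {n' m' : ι → ℕ} (hn' : PB q n') (hm' : EB q m')
    {g' : ∀ i, Fin (n' i) → MvPolynomial (Fin (n' i)) (MvPolynomial (Fin (n i)) ℤ)}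
    (hg' : ∀ i j, (g' i j).totalDegree < m' i)
    (hgU' : UB (fun x : Σ i, Fin (n' i) => q x.1) (fun x => g' x.1 x.2))
    {κ : ι → Type*} {P : ∀ i, κ i → MvPolynomial (Fin (n' i)) (MvPolynomial (Fin (n i)) ℤ)}
    (hP : UB (fun x : Σ i, κ i => q x.1) (fun x => P x.1 x.2)) :
    ∃ A : Polynomial ℕ, ∀ i, ∀ x : Fin (n i) → ℝ,
      msol (m i) (fun j => map (Int.castRingHom ℝ) (g i j)) x →
      ∀ y : Fin (n' i) → ℝ, msol (m' i) (fun j => map (xhom x) (g' i j)) y → ∀ k,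
        |eval y (map (xhom x) (P i k))| ≤ 2 ^ 2 ^ A.eval (q i) ∧
          (eval y (map (xhom x) (P i k)) = 0 ∨
            1 ≤ |eval y (map (xhom x) (P i k))| * 2 ^ 2 ^ A.eval (q i)) := by
  have hmn : EB q (fun i => m' i ^ n' i) := hm'.pow hn'
  -- the coefficients of the characteristic polynomials
  have hcU := UB.mcp_coeff hn' hm' hg' hgU' hP
  obtain ⟨A, hA⟩ := uniform_msol hn hm hg hgU
    (P := fun i (x : κ i × ℕ) => (mcp (m' i) (g' i) (P i x.1)).coeff x.2) hcU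
  have hDA : DB q (fun i => (2 : ℝ) ^ 2 ^ A.eval (q i)) := ⟨A, fun i => le_rfl⟩
  have hfin : DB q (fun i => ((2 : ℝ) ^ 2 ^ A.eval (q i)) *
      (((m' i ^ n' i : ℕ) : ℝ) + 1) * 2 ^ 2 ^ A.eval (q i) + 1) := by
    refine ((hDA.mul (hmn.db.add (DB.const 1)) (fun i => by positivity)
      fun i => by positivity).mul hDA (fun i => by positivity) fun i => by positivity).add
      (DB.const 1)
  obtain ⟨B, hB⟩ := hfin
  refine ⟨B, fun i x hx y hy k => ?_⟩
  have hroot := mcp_eval_of_msol (totalDegree_map_lt (xhom x) (hg' i)) hy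
    (map (xhom x) (P i k))
  rw [mcp_map (xhom x) (hg' i)] at hroot
  have hmon : ((mcp (m' i) (g' i) (P i k)).map (xhom x)).Monic :=
    (mcp_monic (hg' i) (P i k)).map _
  have hup : ∀ j, |((mcp (m' i) (g' i) (P i k)).map (xhom x)).coeff j| ≤ 2 ^ 2 ^ A.eval (q i) :=
    fun j => by
      rw [Polynomial.coeff_map]
      exact (hA i x hx (k, j)).1
  have hlow : ∀ j, ((mcp (m' i) (g' i) (P i k)).map (xhom x)).coeff j = 0 ∨
      1 ≤ |((mcp (m' i) (g' i) (P i k)).map (xhom x)).coeff j| * 2 ^ 2 ^ A.eval (q i) :=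
    fun j => by
      rw [Polynomial.coeff_map]
      exact (hA i x hx (k, j)).2
  have hdeg : ((mcp (m' i) (g' i) (P i k)).map (xhom x)).natDegree = m' i ^ n' i := by
    rw [(mcp_monic (hg' i) (P i k)).natDegree_map, mcp_natDegree (hg' i)]
  obtain ⟨h1, h2⟩ := root_bound_gap hmon (one_le_dexp _) hup hlow hroot
  rw [hdeg] at h1 h2
  refine ⟨h1.trans (hB i), h2.imp id fun h => h.trans ?_⟩
  exact mul_le_mul_of_nonneg_left (hB i) (abs_nonneg _)

end uniform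

end Crest.Agent.R316
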