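import Crest.Agent.R316.Num.ParamsDefs
import Crest.Agent.R316.Num.SpecBd
import Crest.Agent.R316.Num.ParamsOut

/-!
# R316 / Num / ParamsIn (C6)
-/

set_option autoImplicit false

namespace Crest.Agent.R316

open MvPolynomial

section param

variable (u v : Polynomial ℕ)

/-- the integer parameter point of a configuration -/
def Cfg.pz (c : Cfg) (i : Fin 5) : ℤ := (pnat (u.eval c.q) (v.eval c.q) i : ℤ)

theorem Cfg.db_pz (i : Fin 5) : DB Cfg.q (fun c => |((c.pz u v i : ℤ) : ℝ)|) := DB_pnat u v i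

/-- the inner system over `ℤ[x]` -/
noncomputable def Cfg.gi (c : Cfg) : Fin c.n → MvPolynomial (Fin c.n) (Zx c.n) :=
  innerG (RingHom.id (Zx c.n)) (C (c.pz u v 1)) (C (c.pz u v 2)) c.f

/-- the inner objective over `ℤ[x]` -/
noncomputable def Cfg.hi (c : Cfg) : MvPolynomial (Fin c.n) (Zx c.n) :=
  innerH (RingHom.id (Zx c.n)) (C (c.pz u v 1)) (C (c.pz u v 2)) c.f

theorem Cfg.ub_hi : UB (R := fun c : Cfg => MvPolynomial (Fin c.n) (Zx c.n)) Cfg.q
    (fun c => c.hi u v) := by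
  unfold Cfg.hi
  exact UB_innerH (p1 := fun c => c.pz u v 1) (p2 := fun c => c.pz u v 2) (Cfg.db_pz u v 1)
    (Cfg.db_pz u v 2)

theorem Cfg.ub_gi : UB (R := fun x : Σ c : Cfg, Fin c.n => MvPolynomial (Fin x.1.n) (Zx x.1.n))
    (fun x => x.1.q) (fun x => x.1.gi u v x.2) := by
  unfold Cfg.gi
  exact UB_innerG (p1 := fun c => c.pz u v 1) (p2 := fun c => c.pz u v 2) (Cfg.db_pz u v 1)
    (Cfg.db_pz u v 2)

theorem Cfg.ub_thom :
    UB (R := fun x : Σ c : Cfg, Fin c.n × ℕ => MvPolynomial (Fin x.1.n) (Zx x.1.n))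
      (fun x => x.1.q) (fun x => mthom (mI x.1.n) (x.1.gi u v) x.2.1 x.2.2) := by
  unfold Cfg.gi
  exact UB_innerThom (p1 := fun c => c.pz u v 1) (p2 := fun c => c.pz u v 2) (Cfg.db_pz u v 1)
    (Cfg.db_pz u v 2)

theorem Cfg.gi_totalDegree (c : Cfg) (j : Fin c.n) : (c.gi u v j).totalDegree < mI c.n :=
  innerG_totalDegree_lt _ _ _ c.hf4 j

theorem Cfg.map_gi (c : Cfg) (x : Fin c.n → ℝ) (j : Fin c.n) :
    map (xhom x) (c.gi u v j) =
      gI (fun i => (pnat (u.eval c.q) (v.eval c.q) i : ℝ)) x c.f j := by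
  unfold Cfg.gi gI
  rw [map_innerG, RingHom.comp_id, xhom_C, xhom_C]
  simp [Cfg.pz]

theorem Cfg.map_hi (c : Cfg) (x : Fin c.n → ℝ) :
    map (xhom x) (c.hi u v) = innerH (xhom x) (pnat (u.eval c.q) (v.eval c.q) 1 : ℝ)
      (pnat (u.eval c.q) (v.eval c.q) 2 : ℝ) c.f := by
  unfold Cfg.hi
  rw [map_innerH, RingHom.comp_id, xhom_C, xhom_C]
  simp [Cfg.pz]

/-- the outer system over `ℤ` -/
noncomputable def Cfg.go (c : Cfg) : Fin c.n → MvPolynomial (Fin c.n) ℤ := gO (c.pz u v) c.f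

theorem Cfg.map_go (c : Cfg) (j : Fin c.n) :
    map (Int.castRingHom ℝ) (c.go u v j) =
      gO (fun i => (pnat (u.eval c.q) (v.eval c.q) i : ℝ)) c.f j := by
  unfold Cfg.go
  rw [gO_cast]
  simp [Cfg.pz]

variable {a : Polynomial ℕ}

theorem Cfg.go_totalDegree
    (ha : ∀ c : Cfg, Bd (outQ c.f) (2 ^ 2 ^ a.eval c.q) (2 ^ a.eval c.q)) (c : Cfg)
    (j : Fin c.n) : (c.go u v j).totalDegree < 2 * 2 ^ (a.eval c.q + 1) - 1 :=
  gO_totalDegree_lt _ (outQ_totalDegree_lt ha c) j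

theorem Cfg.ub_go
    (ha : ∀ c : Cfg, Bd (outQ c.f) (2 ^ 2 ^ a.eval c.q) (2 ^ a.eval c.q)) :
    UB (R := fun x : Σ c : Cfg, Fin c.n => MvPolynomial (Fin x.1.n) ℤ)
      (fun x => x.1.q) (fun x => x.1.go u v x.2) :=
  UB_gO ha (Cfg.db_pz u v)

end param

/-- elementary: scaling -/
theorem robust_value {D T w : ℝ} (hD : 1 ≤ D) (hT : 2 * D ≤ T) (hw : |w| ≤ D)
    (hw0 : w = 0 ∨ 1 ≤ |w| * D) :
    (w = 0 ∨ 2 ≤ T * |w|) ∧ T * |w| + 1 ≤ T * T ∧ 1 ≤ |-(T * w) - 1| ∧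
      |-(T * w) - 1| ≤ T * T := by
  have hTpos : 0 < T := by linarith
  have hup : T * |w| + 1 ≤ T * T := by
    have h1 : T * |w| ≤ T * D := mul_le_mul_of_nonneg_left hw hTpos.le
    nlinarith
  have habs : |-(T * w) - 1| ≤ T * |w| + 1 := by
    calc |-(T * w) - 1| ≤ |-(T * w)| + |(1 : ℝ)| := abs_sub _ _
      _ = T * |w| + 1 := by rw [abs_neg, abs_mul, abs_of_pos hTpos, abs_one]
  have h2 : w = 0 ∨ 2 ≤ T * |w| := by
    rcases hw0 with h0 | h0
    · exact Or.inl h0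
    · right
      nlinarith [abs_nonneg w]
  refine ⟨h2, hup, ?_, habs.trans hup⟩
  rcases h2 with h0 | h0
  · rw [h0]; norm_num
  · have h3 : T * |w| ≤ |-(T * w) - 1| + |(1 : ℝ)| := by
      have := abs_sub_abs_le_abs_sub (-(T * w)) (1 : ℝ)
      rw [abs_neg, abs_mul, abs_of_pos hTpos] at this
      linarith
    rw [abs_one] at h3
    linarith

/-- (C6) robustness of the inner test at all real solutions of the outer system -/
theorem exists_inner_robust (a u v : Polynomial ℕ)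
    (ha : ∀ c : Cfg, Bd (outQ c.f) (2 ^ 2 ^ a.eval c.q) (2 ^ a.eval c.q)) :
    ∃ k t : Polynomial ℕ, ∀ c : Cfg, ∀ x : Fin c.n → ℝ,
      msol (2 * 2 ^ (a.eval c.q + 1) - 1)
        (gO (fun i => (pnat (u.eval c.q) (v.eval c.q) i : ℝ)) c.f) x →
      Robust (mI c.n) (gI (fun i => (pnat (u.eval c.q) (v.eval c.q) i : ℝ)) x c.f)
        (2 ^ k.eval c.q) 1 (2 ^ 2 ^ t.eval c.q)
        (psiIn (xhom x) (pnat (u.eval c.q) (v.eval c.q) 1 : ℝ)
          (pnat (u.eval c.q) (v.eval c.q) 2 : ℝ) (2 ^ 2 ^ t.eval c.q) c.f) := by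
  -- values of H
  obtain ⟨A1, hA1⟩ := uniform_msol₂ (q := Cfg.q) (n := Cfg.n)
    (m := fun c => 2 * 2 ^ (a.eval c.q + 1) - 1) (g := fun c => c.go u v) PB_n (EB_outM a)
    (fun c j => c.go_totalDegree u v ha j) (Cfg.ub_go u v ha)
    (n' := Cfg.n) (m' := fun c => mI c.n) (g' := fun c => c.gi u v) PB_n EB_mI
    (fun c j => c.gi_totalDegree u v j) (Cfg.ub_gi u v)
    (κ := fun _ => Unit) (P := fun c _ => c.hi u v)
    ((Cfg.ub_hi u v).comp (fun x : Σ _ : Cfg, Unit => x.1))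
  -- Thom values
  obtain ⟨A2, hA2⟩ := uniform_msol₂ (q := Cfg.q) (n := Cfg.n)
    (m := fun c => 2 * 2 ^ (a.eval c.q + 1) - 1) (g := fun c => c.go u v) PB_n (EB_outM a)
    (fun c j => c.go_totalDegree u v ha j) (Cfg.ub_go u v ha)
    (n' := Cfg.n) (m' := fun c => mI c.n) (g' := fun c => c.gi u v) PB_n EB_mI
    (fun c j => c.gi_totalDegree u v j) (Cfg.ub_gi u v)
    (κ := fun c => Fin c.n × ℕ) (P := fun c x => mthom (mI c.n) (c.gi u v) x.1 x.2)
    (Cfg.ub_thom u v)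
  refine ⟨(A1 + A2 + 1) + (A1 + A2 + 1) + 1, A1 + A2 + 1, fun c x hx => ?_⟩
  have hx' : msol (2 * 2 ^ (a.eval c.q + 1) - 1)
      (fun j => map (Int.castRingHom ℝ) (c.go u v j)) x := by
    intro j
    show _ = eval x (map (Int.castRingHom ℝ) (c.go u v j))
    rw [c.map_go u v j]
    exact hx j
  have hT : ∀ A : Polynomial ℕ, (A = A1 ∨ A = A2) →
      2 * (2 : ℝ) ^ 2 ^ A.eval c.q ≤ 2 ^ 2 ^ (A1 + A2 + 1).eval c.q := by
    intro A hA
    simp only [Polynomial.eval_add, Polynomial.eval_one]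
    refine le_trans ?_ (dexp_mul_le _ _)
    rcases hA with rfl | rfl
    · rw [mul_comm]
      exact mul_le_mul_of_nonneg_left (two_le_dexp _) (by positivity)
    · exact mul_le_mul_of_nonneg_right (two_le_dexp _) (by positivity)
  have hK : (2 : ℝ) ^ 2 ^ (A1 + A2 + 1).eval c.q * 2 ^ 2 ^ (A1 + A2 + 1).eval c.q ≤
      2 ^ 2 ^ ((A1 + A2 + 1) + (A1 + A2 + 1) + 1).eval c.q := by
    have := dexp_mul_le ((A1 + A2 + 1).eval c.q) ((A1 + A2 + 1).eval c.q)
    simpa only [Polynomial.eval_add, Polynomial.eval_one] using this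
  have hsol : ∀ y : Fin c.n → ℝ,
      msol (mI c.n) (gI (fun i => (pnat (u.eval c.q) (v.eval c.q) i : ℝ)) x c.f) y →
      msol (mI c.n) (fun j => map (xhom x) (c.gi u v j)) y := by
    intro y hy j
    show _ = eval y (map (xhom x) (c.gi u v j))
    rw [c.map_gi u v x j]
    exact hy j
  have hgi : (fun j => map (xhom x) (c.gi u v j)) =
      gI (fun i => (pnat (u.eval c.q) (v.eval c.q) i : ℝ)) x c.f :=
    funext fun j => c.map_gi u v x j
  constructor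
  · intro y hy k _
    obtain ⟨h1, h2⟩ := hA1 c x hx' y (hsol y hy) ()
    have h3 := robust_value (one_le_dexp _) (hT A1 (Or.inl rfl)) h1 h2
    rw [c.map_hi u v x] at h3
    have e : eval y (psiIn (xhom x) (pnat (u.eval c.q) (v.eval c.q) 1 : ℝ)
          (pnat (u.eval c.q) (v.eval c.q) 2 : ℝ) (2 ^ 2 ^ (A1 + A2 + 1).eval c.q) c.f k) =
        -((2 : ℝ) ^ 2 ^ (A1 + A2 + 1).eval c.q *
          eval y (innerH (xhom x) (pnat (u.eval c.q) (v.eval c.q) 1 : ℝ)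
            (pnat (u.eval c.q) (v.eval c.q) 2 : ℝ) c.f)) - 1 := by
      unfold psiIn
      simp
    rw [e]
    exact ⟨h3.2.2.1, h3.2.2.2.trans hK⟩
  · intro y hy i l _
    obtain ⟨h1, h2⟩ := hA2 c x hx' y (hsol y hy) (i, l)
    have h3 := robust_value (one_le_dexp _) (hT A2 (Or.inr rfl)) h1 h2
    simp only [← mthom_map (xhom x) (fun j => c.gi_totalDegree u v j), hgi] at h3
    push_cast
    exact ⟨h3.1, h3.2.1.trans hK⟩

end Crest.Agent.R316
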