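import Crest.Agent.R316.Num.ParamsDefs
import Crest.Agent.R316.Ana.Spec
import Crest.Agent.R316.Ana.InnerMin

/-!
# R316 / Num / ParamsQ  (tasks C3, C4)
Growth calculus: `Gr P a` means `Bd P (2^(2^a)) (2^a)`; sizes of `outQ` and `outDisc`.
-/

set_option autoImplicit false

namespace Crest.Agent.R316

open MvPolynomial

/-- one-parameter size class: doubly exponential constant, exponential exponent -/
def Gr {R : Type*} [CommRing R] [HasNu R] (P : R) (a : ℕ) : Prop := Bd P (2 ^ 2 ^ a) (2 ^ a)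

section basic
variable {R : Type*} [CommRing R] [HasNu R]

theorem Gr.of_bd {P : R} {c : ℝ} {E a : ℕ} (h : Bd P c E) (hc : c ≤ 2 ^ 2 ^ a) (hE : E ≤ 2 ^ a) :
    Gr P a :=
  h.mono hc (by positivity) hE

/-- exponent form -/
theorem Gr.of_pow {P : R} {k E a : ℕ} (h : Bd P (2 ^ k) E) (hk : k ≤ 2 ^ a) (hE : E ≤ 2 ^ a) :
    Gr P a :=
  Gr.of_bd h (pow_le_pow_right₀ (by norm_num) hk) hE

theorem Gr.mono {P : R} {a b : ℕ} (h : Gr P a) (hab : a ≤ b) : Gr P b :=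
  Gr.of_pow h (Nat.pow_le_pow_right (by norm_num) hab) (Nat.pow_le_pow_right (by norm_num) hab)

theorem Gr.neg {P : R} {a : ℕ} (h : Gr P a) : Gr (-P) a := Bd.neg h

theorem Gr.add {P Q : R} {a : ℕ} (h : Gr P a) (h' : Gr Q a) : Gr (P + Q) (a + 1) := by
  have h1 := Bd.add h h'
  have e : (2 ^ 2 ^ a + 2 ^ 2 ^ a : ℝ) = 2 ^ (2 ^ a + 1) := by ring
  rw [e, max_self] at h1
  refine Gr.of_pow h1 ?_ (Nat.pow_le_pow_right (by norm_num) (by omega))
  have : 1 ≤ 2 ^ a := Nat.one_le_two_pow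
  rw [pow_succ]; omega

theorem Gr.sub {P Q : R} {a : ℕ} (h : Gr P a) (h' : Gr Q a) : Gr (P - Q) (a + 1) := by
  rw [sub_eq_add_neg]; exact h.add h'.neg

theorem Gr.mul {P Q : R} {a : ℕ} (h : Gr P a) (h' : Gr Q a) : Gr (P * Q) (a + 1) := by
  have h1 := Bd.mul h h'
  have e : (2 ^ 2 ^ a * 2 ^ 2 ^ a : ℝ) = 2 ^ (2 ^ a + 2 ^ a) := by rw [pow_add]
  rw [e] at h1
  exact Gr.of_pow h1 (by rw [pow_succ]; omega) (by rw [pow_succ]; omega)

theorem Gr.pow {P : R} {a b k : ℕ} (h : Gr P a) (hk : k ≤ 2 ^ b) : Gr (P ^ k) (a + b) := by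
  have h1 := Bd.pow h k
  rw [← pow_mul] at h1
  have h2 : 2 ^ a * k ≤ 2 ^ (a + b) := by
    rw [pow_add]; exact Nat.mul_le_mul_left _ hk
  exact Gr.of_pow h1 h2 h2

theorem gr_one (a : ℕ) : Gr (1 : R) a :=
  Gr.of_bd bd_one (one_le_pow₀ (by norm_num)) (Nat.zero_le _)

theorem gr_zero (a : ℕ) : Gr (0 : R) a := bd_zero (by positivity) _

theorem gr_natCast {N a : ℕ} (hN : N ≤ 2 ^ 2 ^ a) : Gr (N : R) a :=
  Gr.of_bd (bd_natCast N) (by exact_mod_cast hN) (Nat.zero_le _)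

theorem gr_aux_add_le (a b : ℕ) : b + 2 ^ a ≤ 2 ^ (a + b) := by
  rw [pow_add]
  have h1 : b + 1 ≤ 2 ^ b := Nat.lt_two_pow_self
  have h2 : 1 ≤ 2 ^ a := Nat.one_le_two_pow
  nlinarith

theorem Gr.sum {ι : Type*} (s : Finset ι) {P : ι → R} {a b : ℕ} (hs : s.card ≤ 2 ^ b)
    (h : ∀ i ∈ s, Gr (P i) a) : Gr (∑ i ∈ s, P i) (a + b) := by
  have h1 := Bd.sum s (by positivity : (0 : ℝ) ≤ 2 ^ 2 ^ a) h
  refine Gr.of_bd h1 ?_ (Nat.pow_le_pow_right (by norm_num) (by omega))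
  have h2 : (s.card : ℝ) ≤ 2 ^ b := by exact_mod_cast hs
  calc (s.card : ℝ) * 2 ^ 2 ^ a ≤ 2 ^ b * 2 ^ 2 ^ a :=
        mul_le_mul_of_nonneg_right h2 (by positivity)
    _ = 2 ^ (b + 2 ^ a) := by rw [pow_add]
    _ ≤ 2 ^ 2 ^ (a + b) := pow_le_pow_right₀ (by norm_num) (gr_aux_add_le a b)

theorem Gr.prod {ι : Type*} (s : Finset ι) {P : ι → R} {a b : ℕ} (hs : s.card ≤ 2 ^ b)
    (h : ∀ i ∈ s, Gr (P i) a) : Gr (∏ i ∈ s, P i) (a + b) := by
  have h1 := Bd.prod s h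
  rw [← pow_mul] at h1
  have h2 : 2 ^ a * s.card ≤ 2 ^ (a + b) := by
    rw [pow_add]; exact Nat.mul_le_mul_left _ hs
  exact Gr.of_pow h1 h2 h2

theorem Gr.C {σ : Type*} {P : R} {a : ℕ} (h : Gr P a) : Gr (MvPolynomial.C P : MvPolynomial σ R) a :=
  Bd.C h

theorem gr_X {σ : Type*} (i : σ) (a : ℕ) : Gr (X i : MvPolynomial σ R) a :=
  Gr.of_bd (bd_X i) (one_le_pow₀ (by norm_num)) Nat.one_le_two_pow

theorem gr_X_pow {σ : Type*} (i : σ) {k a : ℕ} (hk : k ≤ 2 ^ a) :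
    Gr (X i ^ k : MvPolynomial σ R) a := by
  have h := (bd_X (R := R) i).pow k
  rw [one_mul, one_pow] at h
  exact Gr.of_bd h (one_le_pow₀ (by norm_num)) hk

theorem Gr.pderiv {σ : Type*} {P : MvPolynomial σ R} {a : ℕ} (h : Gr P a)
    (hd : P.totalDegree ≤ 2 ^ a) (i : σ) : Gr (MvPolynomial.pderiv i P) (a + 1) := by
  have h1 := Bd.pderiv h hd i
  have e : (((2 ^ a : ℕ) : ℝ) * 2 ^ 2 ^ a) = 2 ^ (a + 2 ^ a) := by push_cast; rw [pow_add]
  rw [e] at h1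
  refine Gr.of_pow h1 ?_ (Nat.pow_le_pow_right (by norm_num) (by omega))
  have : a < 2 ^ a := Nat.lt_two_pow_self
  rw [pow_succ]; omega

theorem Gr.det {q n a : ℕ} (hn : n ≤ q) {M : Matrix (Fin n) (Fin n) R}
    (h : ∀ i j, Gr (M i j) a) : Gr M.det (a + q + q * q) := by
  classical
  rw [Matrix.det_apply']
  refine Gr.sum (b := q * q) _ ?_ fun τ _ => ?_
  · rw [Finset.card_univ, Fintype.card_perm, Fintype.card_fin]
    calc n.factorial ≤ n ^ n := Nat.factorial_le_pow n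
      _ ≤ (2 ^ q) ^ q := by
          calc n ^ n ≤ (2 ^ q) ^ n := Nat.pow_le_pow_left (hn.trans Nat.lt_two_pow_self.le) _
            _ ≤ (2 ^ q) ^ q := Nat.pow_le_pow_right Nat.one_le_two_pow hn
      _ = 2 ^ (q * q) := by rw [pow_mul]
  · have h1 : Gr (∏ i, M (τ i) i) (a + q) := by
      refine Gr.prod _ ?_ fun i _ => h _ _
      rw [Finset.card_univ, Fintype.card_fin]
      exact hn.trans Nat.lt_two_pow_self.le
    rcases Int.units_eq_one_or (Equiv.Perm.sign τ) with h2 | h2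
    · rw [h2]; simpa using h1
    · rw [h2]; simpa using h1.neg

theorem Gr.mnorm {n m a b q : ℕ} {g : Fin n → MvPolynomial (Fin n) R}
    (hg : ∀ i, (g i).totalDegree < m) (hn : n ≤ q) (hm : m ≤ 2 ^ b)
    (hga : ∀ i, Gr (g i) a) {G : MvPolynomial (Fin n) R} (hG : Gr G a)
    (hGd : G.totalDegree ≤ 2 ^ a) :
    Gr (mnorm m g G) (2 * a + b + q + 2 + b * q) := by
  have h1 := Bd.mnorm hg (one_le_pow₀ (by norm_num) : (1 : ℝ) ≤ 2 ^ 2 ^ a) hga hG
  set T := G.totalDegree + n * m with hT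
  have hTb : 1 + T ≤ 2 ^ (a + b + q + 2) := by
    have h2 : n * m ≤ 2 ^ (q + b) := by
      rw [pow_add]
      exact Nat.mul_le_mul (hn.trans Nat.lt_two_pow_self.le) hm
    have h3 : 2 ^ a ≤ 2 ^ (a + b + q) := Nat.pow_le_pow_right (by norm_num) (by omega)
    have h4 : 2 ^ (q + b) ≤ 2 ^ (a + b + q) := Nat.pow_le_pow_right (by norm_num) (by omega)
    have h5 : 1 ≤ 2 ^ (a + b + q) := Nat.one_le_two_pow
    have h6 : 2 ^ (a + b + q + 2) = 4 * 2 ^ (a + b + q) := by rw [pow_add]; ring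
    omega
  have hmn : m ^ n ≤ 2 ^ (b * q) := by
    calc m ^ n ≤ (2 ^ b) ^ n := Nat.pow_le_pow_left hm _
      _ ≤ (2 ^ b) ^ q := Nat.pow_le_pow_right Nat.one_le_two_pow hn
      _ = 2 ^ (b * q) := by rw [pow_mul]
  have key : 2 ^ a * (1 + T) * m ^ n ≤ 2 ^ (2 * a + b + q + 2 + b * q) := by
    have : 2 ^ (2 * a + b + q + 2 + b * q) = 2 ^ a * 2 ^ (a + b + q + 2) * 2 ^ (b * q) := by
      rw [← pow_add, ← pow_add]; congr 1; ring
    rw [this]
    exact Nat.mul_le_mul (Nat.mul_le_mul_left _ hTb) hmn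
  have e : ((2 : ℝ) ^ 2 ^ a * (2 ^ 2 ^ a) ^ T) ^ m ^ n = 2 ^ (2 ^ a * (1 + T) * m ^ n) := by
    rw [← pow_mul, ← pow_add, ← pow_mul]; congr 1; ring
  rw [e] at h1
  refine Gr.of_pow h1 key ?_
  refine le_trans (le_of_eq ?_) key
  ring

end basic

/-- base change along a size-non-increasing homomorphism -/
theorem Bd.map_of_nu_le {R S σ : Type*} [CommRing R] [HasNu R] [CommRing S] [HasNu S] (φ : R →+* S)
    (hφ : ∀ ρ : ℝ, 1 ≤ ρ → ∀ a : R, HasNu.nu ρ (φ a) ≤ HasNu.nu ρ a)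
    {P : MvPolynomial σ R} {c : ℝ} {E : ℕ} (h : Bd P c E) :
    Bd (MvPolynomial.map φ P) c E := by
  intro ρ hρ
  refine le_trans ?_ (h ρ hρ)
  change nuP (HasNu.nu ρ) ρ (MvPolynomial.map φ P) ≤ nuP (HasNu.nu ρ) ρ P
  rw [nuP_eq_sum_of_subset (HasNu.isNu ρ hρ) ρ _ P.support (support_map_subset φ P)]
  unfold nuP
  refine Finset.sum_le_sum fun s _ => ?_
  rw [coeff_map]
  exact mul_le_mul_of_nonneg_right (hφ ρ hρ _) (pow_nonneg (by linarith) _)

theorem gr_nu_xlift_le {n : ℕ} (ρ : ℝ) (hρ : 1 ≤ ρ) (a : Zx n) :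
    HasNu.nu ρ (xlift n a) ≤ HasNu.nu ρ a := by
  unfold xlift
  change nuP (HasNu.nu ρ) ρ (MvPolynomial.map C a) ≤ nuP (HasNu.nu ρ) ρ a
  rw [nuP_eq_sum_of_subset (HasNu.isNu ρ hρ) ρ _ a.support (support_map_subset _ a)]
  unfold nuP
  refine Finset.sum_le_sum fun s _ => ?_
  rw [coeff_map]
  refine mul_le_mul_of_nonneg_right ?_ (pow_nonneg (by linarith) _)
  change nuP (HasNu.nu ρ) ρ (C (coeff s a)) ≤ _
  rw [nuP_C (HasNu.isNu ρ hρ)]

theorem Gr.map_xlift {n : ℕ} {P : Zxy n} {a : ℕ} (h : Gr P a) :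
    Gr (MvPolynomial.map (xlift n) P) a :=
  Bd.map_of_nu_le (xlift n) (fun ρ hρ a => gr_nu_xlift_le ρ hρ a) h

/-! ### concrete sizes -/

section concrete
variable {n q : ℕ} {f : Zxy n}

theorem gr_two_dI_le (hn : n ≤ q) : 2 * dI n ≤ 2 ^ (3 * q + 4) := by
  have h1 : 5 ^ n ≤ 8 ^ q := (Nat.pow_le_pow_left (by norm_num) n).trans
    (Nat.pow_le_pow_right (by norm_num) hn)
  have h2 : (8 : ℕ) ^ q = 2 ^ (3 * q) := by rw [pow_mul]; norm_num
  have h3 : 1 ≤ 2 ^ (3 * q) := Nat.one_le_two_pow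
  have h4 : 2 ^ (3 * q + 4) = 16 * 2 ^ (3 * q) := by rw [pow_add]; ring
  unfold dI
  omega

theorem gr_mI_le (hn : n ≤ q) : mI n ≤ 2 ^ (3 * q + 4) := by
  have := gr_two_dI_le hn
  unfold mI
  omega

theorem gr_fp (hn : n ≤ q) (hf : Gr f q) : Gr (fp f) (4 * q + 5) := by
  unfold fp
  have h1 : Gr (∑ j : Fin n, X j ^ 2 : Zxy n) (1 + q) := by
    refine Gr.sum _ ?_ fun j _ => gr_X_pow j (by norm_num)
    rw [Finset.card_univ, Fintype.card_fin]
    exact hn.trans Nat.lt_two_pow_self.le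
  have h2 : Gr (1 + ∑ j : Fin n, X j ^ 2 : Zxy n) (1 + q + 1) := (gr_one _).add h1
  have h3 : Gr ((1 + ∑ j : Fin n, X j ^ 2 : Zxy n) ^ (3 * 5 ^ n)) (1 + q + 1 + (3 * q + 2)) := by
    refine h2.pow ?_
    have h1 : 5 ^ n ≤ 8 ^ q := (Nat.pow_le_pow_left (by norm_num) n).trans
      (Nat.pow_le_pow_right (by norm_num) hn)
    have h2 : (8 : ℕ) ^ q = 2 ^ (3 * q) := by rw [pow_mul]; norm_num
    have h4 : 2 ^ (3 * q + 2) = 4 * 2 ^ (3 * q) := by rw [pow_add]; ring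
    omega
  exact ((hf.mono (by omega : q ≤ 4 * q + 4)).mul (h3.mono (by omega))).mono (by omega)

theorem gr_mapfp (hn : n ≤ q) (hf : Gr f q) :
    Gr (MvPolynomial.map (xlift n) (fp f)) (4 * q + 5) := (gr_fp hn hf).map_xlift

theorem gr_innerG (hn : n ≤ q) (hf : Gr f q) (j : Fin n) :
    Gr (innerG (xlift n) (C (X 1)) (C (X 2)) f j) (4 * q + 8) := by
  unfold innerG
  have h0 := gr_mapfp hn hf
  have h1 := h0.pderiv (Bd.totalDegree_le₃ h0) j
  have h2 : Gr (C (C (X 2) * C (X 1)) : MvPolynomial (Fin n) (MvPolynomial (Fin n) PP))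
      (4 * q + 5 + 1) := (((gr_X 2 _).C.mul (gr_X 1 _).C)).C
  exact ((h2.mul h1).neg.sub (gr_one _)).mono (by omega)

theorem gr_pen (hn : n ≤ q) : Gr (pen (MvPolynomial (Fin n) PP) n) (4 * q + 8) := by
  unfold pen
  have hc : Gr (C (2 * (dI n : MvPolynomial (Fin n) PP)) :
      MvPolynomial (Fin n) (MvPolynomial (Fin n) PP)) (3 * q + 4) := by
    refine Gr.C ?_
    have : (2 * (dI n : MvPolynomial (Fin n) PP)) = ((2 * dI n : ℕ) : MvPolynomial (Fin n) PP) := by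
      push_cast; ring
    rw [this]
    refine gr_natCast ((gr_two_dI_le hn).trans (Nat.pow_le_pow_right (by norm_num) ?_))
    exact Nat.lt_two_pow_self.le
  refine (Gr.sum (b := q) (a := 3 * q + 4 + 1 + 1 + 1) _ ?_ fun j _ => ?_).mono (by omega)
  · rw [Finset.card_univ, Fintype.card_fin]
    exact hn.trans Nat.lt_two_pow_self.le
  · refine Gr.add ?_ (hc.mono (by omega))
    exact Gr.add ((gr_X_pow j (gr_two_dI_le hn)).mono (by omega)) (hc.mul (gr_X j _))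

theorem gr_innerH (hn : n ≤ q) (hf : Gr f q) :
    Gr (innerH (xlift n) (C (X 1)) (C (X 2)) f) (4 * q + 9) := by
  unfold innerH
  have h0 := gr_mapfp hn hf
  have hc : Gr (C (2 * (dI n : MvPolynomial (Fin n) PP) * C (X 2)) :
      MvPolynomial (Fin n) (MvPolynomial (Fin n) PP)) (4 * q + 7) := by
    refine Gr.C ?_
    have : (2 * (dI n : MvPolynomial (Fin n) PP)) = ((2 * dI n : ℕ) : MvPolynomial (Fin n) PP) := by
      push_cast; ring
    rw [this]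
    have h1 : Gr ((2 * dI n : ℕ) : MvPolynomial (Fin n) PP) (4 * q + 6) := by
      refine gr_natCast ((gr_two_dI_le hn).trans (Nat.pow_le_pow_right (by norm_num) ?_))
      exact (by omega : 3 * q + 4 ≤ 4 * q + 6).trans Nat.lt_two_pow_self.le
    exact h1.mul (gr_X 2 _).C
  have h1 : Gr (C (C (X 1)) * MvPolynomial.map (xlift n) (fp f) - 1 :
      MvPolynomial (Fin n) (MvPolynomial (Fin n) PP)) (4 * q + 7) :=
    ((gr_X 1 _).C.C.mul h0).sub (gr_one _)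
  exact (hc.mul h1).add (gr_pen hn)

theorem gr_mjac {R : Type*} [CommRing R] [HasNu R] {n m a q : ℕ}
    {g : Fin n → MvPolynomial (Fin n) R}
    (hdeg : ∀ (P : MvPolynomial (Fin n) R) (a : ℕ), Gr P a → P.totalDegree ≤ 2 ^ a)
    (hn : n ≤ q) (hm : m ≤ 2 ^ a) (hga : ∀ i, Gr (g i) a) :
    Gr (mjac m g) (a + 2 + q + q * q) := by
  unfold mjac
  refine Gr.det hn fun i j => ?_
  rw [Matrix.of_apply]
  have h1 : Gr (X i ^ m - g i) (a + 1) := (gr_X_pow i hm).sub (hga i)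
  exact h1.pderiv (hdeg _ _ h1) j

theorem gr_innerV (hn : n ≤ q) (hf4 : f.totalDegree ≤ 4) (hf : Gr f q) :
    Gr (innerV (xlift n) (C (X 1)) (C (X 2)) f) (3 * q * q + 20 * q + 100) := by
  unfold innerV
  refine (Gr.mnorm (a := 4 * q + 9) (innerG_totalDegree_lt _ _ _ hf4) hn (gr_mI_le hn)
    (fun i => (gr_innerG hn hf i).mono (by omega)) (gr_innerH hn hf)
    (Bd.totalDegree_le₃ (gr_innerH hn hf))).mono ?_
  nlinarith

theorem gr_innerJ (hn : n ≤ q) (hf : Gr f q) :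
    Gr (mjac (mI n) (innerG (xlift n) (C (X 1)) (C (X 2)) f)) (4 * q + 8 + 2 + q + q * q) :=
  gr_mjac (fun _ _ h => Bd.totalDegree_le₃ h) hn
    ((gr_mI_le hn).trans (Nat.pow_le_pow_right (by norm_num) (by omega))) (gr_innerG hn hf)

theorem gr_innerD (hn : n ≤ q) (hf4 : f.totalDegree ≤ 4) (hf : Gr f q) :
    Gr (innerD (xlift n) (C (X 1)) (C (X 2)) f) (5 * q * q + 20 * q + 100) := by
  unfold innerD
  refine (Gr.mnorm (a := 4 * q + 8 + 2 + q + q * q) (innerG_totalDegree_lt _ _ _ hf4) hn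
    (gr_mI_le hn) (fun i => (gr_innerG hn hf i).mono (by omega)) (gr_innerJ hn hf)
    (Bd.totalDegree_le₃ (gr_innerJ hn hf))).mono ?_
  nlinarith

theorem gr_outQ (hn : n ≤ q) (hf4 : f.totalDegree ≤ 4) (hf : Gr f q) :
    Gr (outQ f) (5 * q * q + 20 * q + 103) := by
  unfold outQ
  have h1 : Gr (∑ i : Fin n, X i ^ 2 : MvPolynomial (Fin n) PP) (1 + q) := by
    refine Gr.sum _ ?_ fun j _ => gr_X_pow j (by norm_num)
    rw [Finset.card_univ, Fintype.card_fin]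
    exact hn.trans Nat.lt_two_pow_self.le
  have h2 : Gr (C (X 0 ^ 2) : MvPolynomial (Fin n) PP) (1 + q) :=
    ((gr_X_pow 0 (by norm_num : 2 ≤ 2 ^ 1)).C).mono (by omega)
  have h3 := h2.sub h1
  have h4 := (h3.mono (by nlinarith : 1 + q + 1 ≤ 5 * q * q + 20 * q + 100)).mul
    ((gr_innerV hn hf4 hf).mono (by nlinarith : _ ≤ 5 * q * q + 20 * q + 100))
  exact (h4.mul ((gr_innerD hn hf4 hf).mono (by omega))).mono (by omega)

theorem gr_outG {a : ℕ} (h : Gr (outQ f) a) (i : Fin n) : Gr (outG f i) (a + 4) := by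
  unfold outG
  have h1 : Gr (outQ f ^ 2) (a + 1) := h.pow (by norm_num)
  have h2 := h1.pderiv (Bd.totalDegree_le₂ h1) i
  have h3 : Gr (C (X 4 * X 3) : MvPolynomial (Fin n) PP) (a + 1 + 1) :=
    (((gr_X 4 _).mul (gr_X 3 _)).C)
  exact ((h3.mul h2).sub (gr_X 4 _).C)

theorem gr_outDisc {a : ℕ} (hn : n ≤ q) (h : Gr (outQ f) a) :
    Gr (outDisc (2 ^ (a + 1)) f) (q * q * 2 + a * q + 4 * a + 10 * q + 100) := by
  unfold outDisc
  have hd : (outQ f).totalDegree < 2 ^ (a + 1) := by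
    refine lt_of_le_of_lt (Bd.totalDegree_le₂ h) ?_
    exact Nat.pow_lt_pow_right (by norm_num) (by omega)
  have hm : 2 * 2 ^ (a + 1) - 1 ≤ 2 ^ (a + 2) := by
    rw [pow_succ 2 (a + 1)]; omega
  have hJ : Gr (mjac (2 * 2 ^ (a + 1) - 1) (outG f)) (a + 4 + 2 + q + q * q) :=
    gr_mjac (fun _ _ h => Bd.totalDegree_le₂ h) hn
      (hm.trans (Nat.pow_le_pow_right (by norm_num) (by omega))) (gr_outG h)
  refine (Gr.mnorm (a := a + 4 + 2 + q + q * q) (b := a + 2) (outG_totalDegree_lt hd) hn hm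
    (fun i => (gr_outG h i).mono (by omega)) hJ (Bd.totalDegree_le₂ hJ)).mono ?_
  nlinarith

end concrete

/-- (C3) size of `Q` -/
theorem exists_outQ_bound : ∃ a : Polynomial ℕ, ∀ c : Cfg,
    Bd (outQ c.f) (2 ^ 2 ^ a.eval c.q) (2 ^ a.eval c.q) := by
  refine ⟨5 * Polynomial.X * Polynomial.X + 20 * Polynomial.X + 103, fun c => ?_⟩
  have h := gr_outQ c.hnq c.hf4 c.hbd
  have e : (5 * Polynomial.X * Polynomial.X + 20 * Polynomial.X + 103 : Polynomial ℕ).eval c.q =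
      5 * c.q * c.q + 20 * c.q + 103 := by simp
  rw [e]
  exact h

/-- (C4) size of the outer discriminant, for `M = 2^(a(q)+1)` -/
theorem exists_outDisc_bound (a : Polynomial ℕ)
    (ha : ∀ c : Cfg, Bd (outQ c.f) (2 ^ 2 ^ a.eval c.q) (2 ^ a.eval c.q)) :
    ∃ b : Polynomial ℕ, ∀ c : Cfg,
      Bd (outDisc (2 ^ (a.eval c.q + 1)) c.f) (2 ^ 2 ^ b.eval c.q) (2 ^ b.eval c.q) := by
  refine ⟨Polynomial.X * Polynomial.X * 2 + a * Polynomial.X + 4 * a + 10 * Polynomial.X + 100,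
    fun c => ?_⟩
  have h := gr_outDisc (a := a.eval c.q) c.hnq (ha c)
  have e : (Polynomial.X * Polynomial.X * 2 + a * Polynomial.X + 4 * a + 10 * Polynomial.X + 100 :
      Polynomial ℕ).eval c.q =
      c.q * c.q * 2 + a.eval c.q * c.q + 4 * a.eval c.q + 10 * c.q + 100 := by simp
  rw [e]
  exact h

end Crest.Agent.R316
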