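import Crest.Agent.R316.Num.ParamsDefs

/-!
# R316 / Num / ParamsT (C5, C7)
-/

set_option autoImplicit false

namespace Crest.Agent.R316

open MvPolynomial

/-- (C5) the explicit point lies in the region `Reg C (2^v)` if `C ≤ 2^(2^u)` -/
theorem pnat_mem_Reg {C : ℝ} {u v : ℕ} (hC : C ≤ 2 ^ 2 ^ u) :
    (fun i => (pnat u v i : ℝ)) ∈ Reg C (2 ^ v) := by
  have hv : 1 ≤ 2 ^ v := Nat.one_le_two_pow
  have hp : ∀ i : Fin 5, ((pnat u v i : ℕ) : ℝ) = 2 ^ (2 ^ u * (4 * 2 ^ v) ^ (i : ℕ)) := by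
    intro i
    unfold pnat
    push_cast
    congr 1
    rw [pow_add, mul_comm (i : ℕ), pow_mul]
    congr 2
    rw [pow_add]
    ring
  have e0 : ((pnat u v 0 : ℕ) : ℝ) = 2 ^ (2 ^ u) := by rw [hp]; simp
  have e1 : ((pnat u v 1 : ℕ) : ℝ) = 2 ^ (2 ^ u * (4 * 2 ^ v)) := by rw [hp]; simp
  have e2 : ((pnat u v 2 : ℕ) : ℝ) = 2 ^ (2 ^ u * (4 * 2 ^ v) ^ 2) := by rw [hp]; rfl
  have e3 : ((pnat u v 3 : ℕ) : ℝ) = 2 ^ (2 ^ u * (4 * 2 ^ v) ^ 3) := by rw [hp]; rfl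
  have e4 : ((pnat u v 4 : ℕ) : ℝ) = 2 ^ (2 ^ u * (4 * 2 ^ v) ^ 4) := by rw [hp]; rfl
  have h12 : (1 : ℝ) ≤ 2 := by norm_num
  generalize hV : 2 ^ v = V at *
  generalize hU : 2 ^ u = U at *
  have q1 : U * V ≤ U * (4 * V) := by nlinarith [Nat.zero_le (U * V)]
  refine ⟨?_, ?_, ?_, ?_, ?_⟩
  · change C ≤ ((pnat u v 0 : ℕ) : ℝ)
    rw [e0]; exact hC
  · change ((pnat u v 0 : ℕ) : ℝ) ^ V ≤ ((pnat u v 1 : ℕ) : ℝ)
    rw [e0, e1, ← pow_mul]
    exact pow_le_pow_right₀ h12 q1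
  · change (((pnat u v 0 : ℕ) : ℝ) * ((pnat u v 1 : ℕ) : ℝ)) ^ V ≤ ((pnat u v 2 : ℕ) : ℝ)
    rw [e0, e1, e2, ← pow_add, ← pow_mul]
    refine pow_le_pow_right₀ h12 ?_
    have : U * (4 * V) ^ 2 = (U + U * (4 * V)) * V + U * V * (12 * V - 1) := by
      obtain ⟨W, rfl⟩ : ∃ W, V = W + 1 := ⟨V - 1, by omega⟩
      have : 12 * (W + 1) - 1 = 12 * W + 11 := by omega
      rw [this]; ring
    rw [this]; exact Nat.le_add_right _ _
  · change (((pnat u v 0 : ℕ) : ℝ) * ((pnat u v 1 : ℕ) : ℝ) * ((pnat u v 2 : ℕ) : ℝ)) ^ V ≤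
      ((pnat u v 3 : ℕ) : ℝ)
    rw [e0, e1, e2, e3, ← pow_add, ← pow_add, ← pow_mul]
    refine pow_le_pow_right₀ h12 ?_
    obtain ⟨W, rfl⟩ : ∃ W, V = W + 1 := ⟨V - 1, by omega⟩
    have : U * (4 * (W + 1)) ^ 3 = (U + U * (4 * (W + 1)) + U * (4 * (W + 1)) ^ 2) * (W + 1)
        + U * (W + 1) * (48 * (W + 1) ^ 2 - 4 * (W + 1) - 1) := by
      have : 48 * (W + 1) ^ 2 - 4 * (W + 1) - 1 = 48 * W ^ 2 + 92 * W + 43 := by
        have : 48 * (W + 1) ^ 2 = 48 * W ^ 2 + 92 * W + 43 + (4 * (W + 1)) + 1 := by ring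
        omega
      rw [this]; ring
    rw [this]; exact Nat.le_add_right _ _
  · change (((pnat u v 0 : ℕ) : ℝ) * ((pnat u v 1 : ℕ) : ℝ) * ((pnat u v 2 : ℕ) : ℝ) *
      ((pnat u v 3 : ℕ) : ℝ)) ^ V ≤ ((pnat u v 4 : ℕ) : ℝ)
    rw [e0, e1, e2, e3, e4, ← pow_add, ← pow_add, ← pow_add, ← pow_mul]
    refine pow_le_pow_right₀ h12 ?_
    obtain ⟨W, rfl⟩ : ∃ W, V = W + 1 := ⟨V - 1, by omega⟩
    have : U * (4 * (W + 1)) ^ 4 = (U + U * (4 * (W + 1)) + U * (4 * (W + 1)) ^ 2 +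
        U * (4 * (W + 1)) ^ 3) * (W + 1)
        + U * (W + 1) * (192 * W ^ 3 + 560 * W ^ 2 + 540 * W + 171) := by
      ring
    rw [this]; exact Nat.le_add_right _ _

theorem one_le_two_pow' (k : ℕ) : 1 ≤ 2 ^ k := Nat.one_le_two_pow

/-- exponential bounds -/
theorem pow_le_two_pow {n m q D : ℕ} (hn : n ≤ q) (hm : m ≤ 2 ^ D) : m ^ n ≤ 2 ^ (D * q) := by
  calc m ^ n ≤ (2 ^ D) ^ n := Nat.pow_le_pow_left hm n
    _ = 2 ^ (D * n) := by rw [← pow_mul]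
    _ ≤ 2 ^ (D * q) := Nat.pow_le_pow_right (by norm_num) (Nat.mul_le_mul_left _ hn)

theorem nThom_le {n m q D : ℕ} (hn : n ≤ q) (hm : m ≤ 2 ^ D) :
    nThom n m ≤ 2 ^ (q + D * q + 2) := by
  unfold nThom
  have h1 : m ^ n + 1 ≤ 2 ^ (D * q + 1) := by
    have := pow_le_two_pow hn hm
    have h2 := one_le_two_pow' (D * q)
    rw [pow_succ]; omega
  have h3 : n ≤ 2 ^ q := hn.trans (Nat.lt_two_pow_self).le
  calc 2 * (n * (m ^ n + 1)) ≤ 2 * (2 ^ q * 2 ^ (D * q + 1)) := by gcongr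
    _ = 2 ^ (q + D * q + 2) := by ring

/-- (C7) combinatorial parameters, given an exponential bound `2^d(q)` for `m` and `N1` -/
theorem exists_tpar_ok (d : Polynomial ℕ) : ∃ b l e : Polynomial ℕ, ∀ (q n m N1 K T0 : ℕ),
    n ≤ q → m ≤ 2 ^ d.eval q → N1 ≤ 2 ^ d.eval q → 0 < T0 →
    TPar.OK n m N1 { K := K, e := 2 ^ (e.eval q + 1), T0 := T0, B := 2 ^ b.eval q,
                     L := 2 ^ l.eval q } := by
  refine ⟨Polynomial.X + 3 * d * Polynomial.X + 3,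
    2 * Polynomial.X + 4 * d * Polynomial.X + 7,
    d + (Polynomial.X + d * Polynomial.X) + (2 * Polynomial.X + 4 * d * Polynomial.X + 7) + 5, ?_⟩
  intro q n m N1 K T0 hn hm hN hT
  set D := d.eval q with hD
  have hb : (Polynomial.X + 3 * d * Polynomial.X + 3 : Polynomial ℕ).eval q = q + 3 * D * q + 3 := by
    simp [hD]
  have hl : (2 * Polynomial.X + 4 * d * Polynomial.X + 7 : Polynomial ℕ).eval q =
      2 * q + 4 * D * q + 7 := by
    simp [hD]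
  have he : (d + (Polynomial.X + d * Polynomial.X) + (2 * Polynomial.X + 4 * d * Polynomial.X + 7)
      + 5 : Polynomial ℕ).eval q = D + (q + D * q) + (2 * q + 4 * D * q + 7) + 5 := by
    simp [hD]
  rw [hb, hl, he]
  have hTh := nThom_le hn hm
  have hmn := pow_le_two_pow hn hm
  have hB : nThom n m * (m ^ n) ^ 2 < 2 ^ (q + 3 * D * q + 3) := by
    calc nThom n m * (m ^ n) ^ 2 ≤ 2 ^ (q + D * q + 2) * (2 ^ (D * q)) ^ 2 := by gcongr
      _ = 2 ^ (q + 3 * D * q + 2) := by ring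
      _ < 2 ^ (q + 3 * D * q + 3) := Nat.pow_lt_pow_right (by norm_num) (by omega)
  have hL : nThom n m * (2 * 2 ^ (q + 3 * D * q + 3)) < 2 ^ (2 * q + 4 * D * q + 7) := by
    calc nThom n m * (2 * 2 ^ (q + 3 * D * q + 3))
        ≤ 2 ^ (q + D * q + 2) * (2 * 2 ^ (q + 3 * D * q + 3)) := by gcongr
      _ = 2 ^ (2 * q + 4 * D * q + 6) := by ring
      _ < 2 ^ (2 * q + 4 * D * q + 7) := Nat.pow_lt_pow_right (by norm_num) (by omega)
  refine ⟨?_, hB, hL, ?_, hT⟩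
  · change Even (2 ^ _)
    rw [pow_succ]; exact even_two.mul_left _
  · intro p hp a _
    change 4 * ∑ k ∈ Finset.range (N1 + nThom n m), famW N1 (2 ^ (2 * q + 4 * D * q + 7)) p a k <
      3 ^ (2 ^ (D + (q + D * q) + (2 * q + 4 * D * q + 7) + 5 + 1))
    change p < 2 * 2 ^ (q + 3 * D * q + 3) at hp
    have hw : ∀ k ∈ Finset.range (N1 + nThom n m),
        famW N1 (2 ^ (2 * q + 4 * D * q + 7)) p a k ≤ 2 ^ (2 * q + 4 * D * q + 7) := by
      intro k _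
      unfold famW
      split_ifs
      · exact le_rfl
      · calc a ^ (k - N1) % (p + 1) ≤ p := Nat.lt_succ_iff.1 (Nat.mod_lt _ (by omega))
          _ ≤ 2 * 2 ^ (q + 3 * D * q + 3) := hp.le
          _ = 2 ^ (q + 3 * D * q + 4) := by ring
          _ ≤ 2 ^ (2 * q + 4 * D * q + 7) := Nat.pow_le_pow_right (by norm_num) (by nlinarith)
    have h1 := Finset.sum_le_card_nsmul _ _ _ hw
    rw [Finset.card_range, smul_eq_mul] at h1
    have h2 : N1 + nThom n m ≤ 2 ^ (D + (q + D * q) + 3) := by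
      have a1 : 2 ^ D ≤ 2 ^ (D + (q + D * q) + 2) := Nat.pow_le_pow_right (by norm_num) (by omega)
      have a2 : 2 ^ (q + D * q + 2) ≤ 2 ^ (D + (q + D * q) + 2) :=
        Nat.pow_le_pow_right (by norm_num) (by omega)
      calc N1 + nThom n m ≤ 2 ^ (D + (q + D * q) + 2) + 2 ^ (D + (q + D * q) + 2) := by omega
        _ = 2 ^ (D + (q + D * q) + 3) := by ring
    calc 4 * ∑ k ∈ Finset.range (N1 + nThom n m), famW N1 (2 ^ (2 * q + 4 * D * q + 7)) p a k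
        ≤ 4 * (2 ^ (D + (q + D * q) + 3) * 2 ^ (2 * q + 4 * D * q + 7)) := by
          gcongr
          exact h1.trans (Nat.mul_le_mul_right _ h2)
      _ = 2 ^ (D + (q + D * q) + (2 * q + 4 * D * q + 7) + 5) := by ring
      _ < 2 ^ (2 ^ (D + (q + D * q) + (2 * q + 4 * D * q + 7) + 5 + 1)) := by
          refine Nat.pow_lt_pow_right (by norm_num) ?_
          exact (Nat.lt_succ_self _).trans Nat.lt_two_pow_self
      _ ≤ 3 ^ (2 ^ (D + (q + D * q) + (2 * q + 4 * D * q + 7) + 5 + 1)) :=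
          Nat.pow_le_pow_left (by norm_num) _

end Crest.Agent.R316
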