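import Crest.Agent.R316.Num.ParamsDefs
import Crest.Agent.R316.Num.ParamsQ
import Crest.Agent.R316.Num.ParamsT
import Crest.Agent.R316.Num.ParamsIn
import Crest.Agent.R316.Num.ParamsOut

/-!
# R316 / Num / Params (C9): explicit parameters, everything (doubly) exponentially bounded
-/

set_option autoImplicit false

namespace Crest.Agent.R316

open MvPolynomial

theorem mI_le {n q : ℕ} (hn : n ≤ q) : mI n ≤ 2 ^ (3 * q + 4) := by
  unfold mI dI
  have h1 : 5 ^ n ≤ 2 ^ (3 * q) := by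
    calc 5 ^ n ≤ 8 ^ n := Nat.pow_le_pow_left (by norm_num) _
      _ = 2 ^ (3 * n) := by rw [pow_mul]; norm_num
      _ ≤ 2 ^ (3 * q) := Nat.pow_le_pow_right (by norm_num) (by omega)
  have h2 : 2 ^ (3 * q + 4) = 16 * 2 ^ (3 * q) := by ring
  have h3 := one_le_two_pow' (3 * q)
  omega

/-- **(C9) final equivalence with explicit parameters** -/
theorem exists_params : ∃ a u v k e t b l k' e' t' b' l' : Polynomial ℕ,
    (∀ c : Cfg, Bd (outQ c.f) (2 ^ 2 ^ a.eval c.q) (2 ^ a.eval c.q)) ∧ ∀ c : Cfg,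
    (Truth c.f ↔ ∃ s < nSeeds (2 ^ b'.eval c.q) (2 ^ l'.eval c.q)
        ((2 * 2 ^ (a.eval c.q + 1) - 1) ^ c.n),
      finalW (2 ^ (a.eval c.q + 1)) (fun i => (pnat (u.eval c.q) (v.eval c.q) i : ℤ))
        (mkTPar (k.eval c.q) (e.eval c.q) (t.eval c.q) (b.eval c.q) (l.eval c.q))
        (mkTPar (k'.eval c.q) (e'.eval c.q) (t'.eval c.q) (b'.eval c.q) (l'.eval c.q))
        c.f s < 0) := by
  obtain ⟨a, ha⟩ := exists_outQ_bound
  obtain ⟨b0, hb0⟩ := exists_outDisc_bound a ha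
  set u : Polynomial ℕ := b0 + 1 with hu
  set v : Polynomial ℕ := a + b0 + 2 with hv
  obtain ⟨k, t, hin⟩ := exists_inner_robust a u v ha
  obtain ⟨b, l, e, hOK⟩ := exists_tpar_ok (3 * Polynomial.X + 4)
  obtain ⟨k', t', hout⟩ := exists_outer_robust a u v k e t b l ha
  obtain ⟨b', l', e', hOK'⟩ := exists_tpar_ok
    ((a + 2) + (2 * b + l + (3 * Polynomial.X + 4) * Polynomial.X + 4))
  refine ⟨a, u, v, k, e, t, b, l, k', e', t', b', l', ha, ?_⟩
  intro c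
  have hueval : u.eval c.q = b0.eval c.q + 1 := by simp [hu]
  have hveval : v.eval c.q = a.eval c.q + b0.eval c.q + 2 := by simp [hv]
  -- the exponent `M`
  have hM : (outQ c.f).totalDegree < 2 ^ (a.eval c.q + 1) := by
    refine lt_of_le_of_lt (ha c).totalDegree_le₂ ?_
    exact Nat.pow_lt_pow_right (by norm_num) (by omega)
  -- the constants
  have h12 : (1 : ℝ) ≤ 2 := by norm_num
  have hC1 : (2 : ℝ) ^ 2 ^ b0.eval c.q + 1 ≤ 2 ^ 2 ^ u.eval c.q := by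
    have h1 : (1 : ℝ) ≤ 2 ^ 2 ^ b0.eval c.q := one_le_pow₀ h12
    have h2 : (2 : ℝ) ^ 2 ^ u.eval c.q = 2 ^ 2 ^ b0.eval c.q * 2 ^ 2 ^ b0.eval c.q := by
      rw [hueval, pow_succ, pow_mul, pow_two]
    have h3 : (2 : ℝ) ≤ 2 ^ 2 ^ b0.eval c.q := by
      calc (2 : ℝ) = 2 ^ 1 := by norm_num
        _ ≤ 2 ^ 2 ^ b0.eval c.q := pow_le_pow_right₀ h12 (one_le_two_pow' _)
    rw [h2]; nlinarith
  have hC2 : (2 : ℝ) ≤ 2 ^ 2 ^ u.eval c.q := by
    calc (2 : ℝ) = 2 ^ 1 := by norm_num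
      _ ≤ _ := pow_le_pow_right₀ h12 (one_le_two_pow' _)
  have hE1 : 2 ^ b0.eval c.q + 1 ≤ 2 ^ v.eval c.q := by
    have h1 : 2 ^ (b0.eval c.q + 1) ≤ 2 ^ v.eval c.q :=
      Nat.pow_le_pow_right (by norm_num) (by omega)
    have h2 := one_le_two_pow' (b0.eval c.q)
    rw [pow_succ] at h1; omega
  have hE2 : 2 * 2 ^ (a.eval c.q + 1) ≤ 2 ^ v.eval c.q := by
    calc 2 * 2 ^ (a.eval c.q + 1) = 2 ^ (a.eval c.q + 2) := by ring
      _ ≤ 2 ^ v.eval c.q := Nat.pow_le_pow_right (by norm_num) (by omega)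
  have hBd : Bd (outDisc (2 ^ (a.eval c.q + 1)) c.f) ((2 : ℝ) ^ 2 ^ u.eval c.q - 1)
      (2 ^ v.eval c.q - 1) := by
    refine (hb0 c).mono ?_ ?_ ?_
    · linarith
    · linarith
    · omega
  have hReg : (fun i => (pnat (u.eval c.q) (v.eval c.q) i : ℝ)) ∈
      Reg ((2 : ℝ) ^ 2 ^ u.eval c.q) (2 ^ v.eval c.q) := pnat_mem_Reg le_rfl
  rw [truth_iff_EE c.hf4 c.hf0 hM hC2 hE2 hBd hReg]
  -- hypotheses of the numeric decision
  have hdisc : xhom (fun i => (pnat (u.eval c.q) (v.eval c.q) i : ℝ))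
      (outDisc (2 ^ (a.eval c.q + 1)) c.f) ≠ 0 := by
    refine ne_zero_of_mem_Reg (outDisc_ne_zero hM) hBd ?_
    have h1 : 2 ^ v.eval c.q - 1 + 1 = 2 ^ v.eval c.q := by
      have := one_le_two_pow' (v.eval c.q); omega
    rw [h1, sub_add_cancel]
    exact hReg
  have hpos : ∀ i, 0 < pnat (u.eval c.q) (v.eval c.q) i := by
    intro i; unfold pnat; positivity
  have h4 : pnat (u.eval c.q) (v.eval c.q) 0 ^ (2 * 2 ^ (a.eval c.q + 1) - 1) <
      pnat (u.eval c.q) (v.eval c.q) 4 := by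
    unfold pnat
    rw [← pow_mul]
    refine Nat.pow_lt_pow_right (by norm_num) ?_
    have e0 : ((0 : Fin 5) : ℕ) = 0 := rfl
    have e4 : ((4 : Fin 5) : ℕ) = 4 := rfl
    rw [e0, e4, zero_mul, add_zero]
    calc 2 ^ u.eval c.q * (2 * 2 ^ (a.eval c.q + 1) - 1)
        < 2 ^ u.eval c.q * (2 * 2 ^ (a.eval c.q + 1)) := by
          refine Nat.mul_lt_mul_of_pos_left ?_ (by positivity)
          have := one_le_two_pow' (a.eval c.q + 1); omega
      _ ≤ 2 ^ u.eval c.q * 2 ^ v.eval c.q := Nat.mul_le_mul_left _ hE2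
      _ = 2 ^ (u.eval c.q + v.eval c.q) := by rw [pow_add]
      _ ≤ 2 ^ (u.eval c.q + 4 * (v.eval c.q + 2)) :=
          Nat.pow_le_pow_right (by norm_num) (by omega)
  set T : TPar := mkTPar (k.eval c.q) (e.eval c.q) (t.eval c.q) (b.eval c.q) (l.eval c.q) with hT
  set T' : TPar := mkTPar (k'.eval c.q) (e'.eval c.q) (t'.eval c.q) (b'.eval c.q) (l'.eval c.q)
    with hT'
  have hd1 : (3 * Polynomial.X + 4 : Polynomial ℕ).eval c.q = 3 * c.q + 4 := by simp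
  have hmI := mI_le c.hnq
  have ok : T.OK c.n (mI c.n) 1 := by
    refine hOK c.q c.n (mI c.n) 1 _ _ c.hnq ?_ ?_ ?_
    · rw [hd1]; exact hmI
    · exact one_le_two_pow' _
    · positivity
  have hnOut : nOut c.n T ≤ 2 ^ (2 * b.eval c.q + l.eval c.q + (3 * c.q + 4) * c.q + 4) := by
    have h1 : mI c.n ^ c.n ≤ 2 ^ ((3 * c.q + 4) * c.q) := pow_le_two_pow c.hnq hmI
    have h2 := one_le_two_pow' ((3 * c.q + 4) * c.q)
    have h3 : mI c.n ^ c.n + 1 ≤ 2 ^ ((3 * c.q + 4) * c.q + 1) := by rw [pow_succ]; omega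
    have h4 : nSeeds T.B T.L (mI c.n ^ c.n) ≤
        2 ^ (2 * b.eval c.q + l.eval c.q + (3 * c.q + 4) * c.q + 3) := by
      calc (2 * 2 ^ b.eval c.q) ^ 2 * 2 ^ l.eval c.q * (mI c.n ^ c.n + 1)
          ≤ (2 * 2 ^ b.eval c.q) ^ 2 * 2 ^ l.eval c.q * 2 ^ ((3 * c.q + 4) * c.q + 1) := by
            gcongr
        _ = 2 ^ (2 * b.eval c.q + l.eval c.q + (3 * c.q + 4) * c.q + 3) := by ring
    have h5 := one_le_two_pow' (2 * b.eval c.q + l.eval c.q + (3 * c.q + 4) * c.q + 3)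
    unfold nOut
    rw [pow_succ]; omega
  have ok' : T'.OK c.n (2 * 2 ^ (a.eval c.q + 1) - 1) (nOut c.n T) := by
    have hd2 : ((a + 2) + (2 * b + l + (3 * Polynomial.X + 4) * Polynomial.X + 4) :
        Polynomial ℕ).eval c.q = (a.eval c.q + 2) +
          (2 * b.eval c.q + l.eval c.q + (3 * c.q + 4) * c.q + 4) := by simp
    refine hOK' c.q c.n _ _ _ _ c.hnq ?_ ?_ ?_
    · rw [hd2]
      calc 2 * 2 ^ (a.eval c.q + 1) - 1 ≤ 2 * 2 ^ (a.eval c.q + 1) := Nat.sub_le _ _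
        _ = 2 ^ (a.eval c.q + 2) := by ring
        _ ≤ _ := Nat.pow_le_pow_right (by norm_num) (by omega)
    · rw [hd2]
      exact hnOut.trans (Nat.pow_le_pow_right (by norm_num) (by omega))
    · positivity
  have hR := hin c
  have hR' := hout c T hT T' rfl rfl
  exact EE_iff_finalW c.hf4 c.hf0 hM (fun i => pnat (u.eval c.q) (v.eval c.q) i) hpos h4 hdisc
    ok ok' hR hR'

end Crest.Agent.R316
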