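import Crest.Agent.R316.Ana.Spec
import Crest.Agent.R316.Alg.ExistsTest

/-!
# R316 / Num / Test  (task C1)
`EE` at an integer parameter point is equivalent to the negativity of one of the integers
`finalW`.
-/

set_option autoImplicit false
set_option maxHeartbeats 400000

namespace Crest.Agent.R316

open MvPolynomial

variable {n : ℕ} [NeZero n]

/-- combinatorial conditions on the parameters of one test -/
structure TPar.OK (n m N1 : ℕ) (t : TPar) : Prop where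
  even : Even t.e
  hB : nThom n m * (m ^ n) ^ 2 < t.B
  hL : nThom n m * (2 * t.B) < t.L
  hw : ∀ p < 2 * t.B, ∀ a < 2 * t.B,
    4 * ∑ k ∈ Finset.range (N1 + nThom n m), famW N1 t.L p a k < 3 ^ t.e
  hT : 0 < t.T0

theorem TPar.OK.Bpos {n m N1 : ℕ} {t : TPar} (h : t.OK n m N1) : 0 < t.B :=
  lt_of_le_of_lt (Nat.zero_le _) h.hB

theorem TPar.OK.Lpos {n m N1 : ℕ} {t : TPar} (h : t.OK n m N1) : 0 < t.L :=
  lt_of_le_of_lt (Nat.zero_le _) h.hL

/-- soundness part only (no simplicity needed) -/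
theorem exists_of_seed {m : ℕ} {g : Fin n → MvPolynomial (Fin n) ℝ}
    (hg : ∀ i, (g i).totalDegree < m) {t : TPar} {N1 : ℕ} {ψ : ℕ → MvPolynomial (Fin n) ℝ}
    (hR : Robust m g t.K N1 t.T0 ψ) (hOK : t.OK n m N1) {s : ℕ}
    (h : mnorm m g (seedPolyS m g t N1 ψ s) < 0) :
    ∃ x, msol m g x ∧ ∀ k < N1, 0 < eval x (ψ k) := by
  have hB := hOK.Bpos
  have hL := hOK.Lpos
  unfold seedPolyS at h
  refine exists_of_seedPoly_neg hg hR hOK.even (hOK.hw _ ?_ _ ?_) ?_ h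
  · exact Nat.mod_lt _ (by omega)
  · exact Nat.mod_lt _ (by omega)
  · exact Nat.mod_lt _ hL

/-- decoding of an encoded seed -/
theorem exists_seed {B L D p a v c : ℕ} (hp : p < 2 * B) (ha : a < 2 * B) (hv : v < L)
    (hc : c ≤ D) : ∃ s < nSeeds B L D, seedOf B L D s = (p, a, v, c) := by
  have hB : 0 < 2 * B := by omega
  have hL : 0 < L := by omega
  refine ⟨p + 2 * B * (a + 2 * B * (v + L * c)), ?_, ?_⟩
  · unfold nSeeds
    have h1 : v + L * c + 1 ≤ L * (D + 1) := by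
      have : L * c ≤ L * D := Nat.mul_le_mul_left _ hc
      rw [mul_add]
      omega
    have h2 : a + 2 * B * (v + L * c) + 1 ≤ 2 * B * (L * (D + 1)) := by
      have : 2 * B * (v + L * c + 1) ≤ 2 * B * (L * (D + 1)) := Nat.mul_le_mul_left _ h1
      rw [mul_add] at this
      omega
    have h3 : p + 2 * B * (a + 2 * B * (v + L * c)) + 1 ≤ 2 * B * (2 * B * (L * (D + 1))) := by
      have : 2 * B * (a + 2 * B * (v + L * c) + 1) ≤ 2 * B * (2 * B * (L * (D + 1))) :=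
        Nat.mul_le_mul_left _ h2
      rw [mul_add] at this
      omega
    have h4 : (2 * B) ^ 2 * L * (D + 1) = 2 * B * (2 * B * (L * (D + 1))) := by ring
    rw [h4]
    omega
  · have d1 : (p + 2 * B * (a + 2 * B * (v + L * c))) / (2 * B) = a + 2 * B * (v + L * c) := by
      rw [Nat.add_mul_div_left _ _ hB, Nat.div_eq_of_lt hp, zero_add]
    have d2 : (a + 2 * B * (v + L * c)) / (2 * B) = v + L * c := by
      rw [Nat.add_mul_div_left _ _ hB, Nat.div_eq_of_lt ha, zero_add]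
    have d3 : (v + L * c) / L = c := by
      rw [Nat.add_mul_div_left _ _ hL, Nat.div_eq_of_lt hv, zero_add]
    have e1 : (p + 2 * B * (a + 2 * B * (v + L * c))) % (2 * B) = p := by
      rw [Nat.add_mul_mod_self_left, Nat.mod_eq_of_lt hp]
    have e2 : (a + 2 * B * (v + L * c)) % (2 * B) = a := by
      rw [Nat.add_mul_mod_self_left, Nat.mod_eq_of_lt ha]
    have e3 : (v + L * c) % L = v := by
      rw [Nat.add_mul_mod_self_left, Nat.mod_eq_of_lt hv]
    have e4 : c % (D + 1) = c := Nat.mod_eq_of_lt (by omega)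
    have f2 : (p + 2 * B * (a + 2 * B * (v + L * c))) / (2 * B) ^ 2 = v + L * c := by
      rw [pow_two, ← Nat.div_div_eq_div_mul _ (2 * B) (2 * B), d1, d2]
    have f3 : (p + 2 * B * (a + 2 * B * (v + L * c))) / ((2 * B) ^ 2 * L) = c := by
      rw [← Nat.div_div_eq_div_mul _ ((2 * B) ^ 2) L, f2, d3]
    unfold seedOf
    rw [d1, f2, f3, e1, e2, e3, e4]

/-- existence test in terms of seed numbers -/
theorem exists_iff_seed {m : ℕ} {g : Fin n → MvPolynomial (Fin n) ℝ}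
    (hg : ∀ i, (g i).totalDegree < m) {t : TPar} {N1 : ℕ} {ψ : ℕ → MvPolynomial (Fin n) ℝ}
    (hR : Robust m g t.K N1 t.T0 ψ) (hOK : t.OK n m N1)
    (hsimple : ∀ x, msol m g x → (∀ k < N1, 0 < eval x (ψ k)) → eval x (mjac m g) ≠ 0) :
    (∃ x, msol m g x ∧ ∀ k < N1, 0 < eval x (ψ k)) ↔
      ∃ s < nSeeds t.B t.L (m ^ n), mnorm m g (seedPolyS m g t N1 ψ s) < 0 := by
  constructor
  · intro h
    obtain ⟨p, hp, a, ha, v, hv, c, hc, hlt⟩ := seedPoly_neg_of_exists hg hR hOK.even hOK.hB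
      hOK.hL hOK.hw hsimple h
    obtain ⟨s, hs, he⟩ := exists_seed (D := m ^ n) hp ha hv hc
    refine ⟨s, hs, ?_⟩
    unfold seedPolyS
    rw [he]
    exact hlt
  · rintro ⟨s, _, hs⟩
    exact exists_of_seed hg hR hOK hs

omit [NeZero n] in
theorem eval_psiIn {p : Fin 5 → ℝ} {x y : Fin n → ℝ} (T : ℕ) (f : Zxy n) (k : ℕ) :
    eval y (psiIn (xhom x) (p 1) (p 2) T f k) = -((T : ℝ) * eval y (HI p x f)) - 1 := by
  unfold psiIn HI
  simp

/-- inner test, soundness -/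
theorem inner_test_sound {f : Zxy n} (hf4 : f.totalDegree ≤ 4) {p : Fin 5 → ℝ}
    {x : Fin n → ℝ} {t : TPar} (hOK : t.OK n (mI n) 1)
    (hR : Robust (mI n) (gI p x f) t.K 1 t.T0 (psiIn (xhom x) (p 1) (p 2) t.T0 f)) {s : ℕ}
    (h : innerN (xhom x) (p 1) (p 2) t f s < 0) : ¬ ∀ y, 0 < eval y (HI p x f) := by
  obtain ⟨y, _, hy⟩ := exists_of_seed (innerG_totalDegree_lt (xhom x) (p 1) (p 2) hf4) hR hOK h
  intro hall
  have h1 := hy 0 (by norm_num)
  rw [eval_psiIn] at h1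
  have h2 := hall y
  have h3 : (0 : ℝ) ≤ t.T0 := Nat.cast_nonneg _
  have h4 : 0 ≤ (t.T0 : ℝ) * eval y (HI p x f) := mul_nonneg h3 h2.le
  linarith

/-- inner test, completeness -/
theorem inner_test_complete {f : Zxy n} (hf4 : f.totalDegree ≤ 4)
    (hf0 : ∀ x y : Fin n → ℝ, 0 ≤ ev2 x y f) {p : Fin 5 → ℝ} (h1 : 0 < p 1) (h2 : 0 < p 2)
    {x : Fin n → ℝ} {t : TPar} (hOK : t.OK n (mI n) 1)
    (hR : Robust (mI n) (gI p x f) t.K 1 t.T0 (psiIn (xhom x) (p 1) (p 2) t.T0 f))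
    (hV : innerV (xhom x) (p 1) (p 2) f ≠ 0) (hD : innerD (xhom x) (p 1) (p 2) f ≠ 0)
    (h : ¬ ∀ y, 0 < eval y (HI p x f)) :
    ∃ s < nSeeds t.B t.L (mI n ^ n), innerN (xhom x) (p 1) (p 2) t f s < 0 := by
  obtain ⟨y, hy, hneg⟩ := (exists_msol_neg_iff hf4 hf0 h1.le h2.le hV).2 h
  have hdeg := innerG_totalDegree_lt (xhom x) (p 1) (p 2) hf4
  refine (exists_iff_seed hdeg hR hOK ?_).1 ⟨y, hy, ?_⟩
  · intro z hz _ h0
    exact hD (mnorm_eq_zero_of_msol hdeg hz h0)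
  · intro k hk
    have h3 := (hR.psi y hy k hk).1
    rw [eval_psiIn] at h3 ⊢
    have hT : (0 : ℝ) < t.T0 := by exact_mod_cast hOK.hT
    have h4 : (t.T0 : ℝ) * eval y (HI p x f) < 0 := mul_neg_of_pos_of_neg hT hneg
    rcases abs_cases (-((t.T0 : ℝ) * eval y (HI p x f)) - 1) with ⟨h5, _⟩ | ⟨h5, _⟩
    · rw [h5] at h3; linarith
    · rw [h5] at h3; linarith

omit [NeZero n] in
theorem map_gO (p : Fin 5 → ℕ) (f : Zxy n) (i : Fin n) :
    map (Int.castRingHom ℝ) (gO (fun i => (p i : ℤ)) f i) = gO (fun i => (p i : ℝ)) f i := by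
  unfold gO
  rw [map_map, xhom_comp]
  simp

theorem cast_finalW {f : Zxy n} {M : ℕ} (hM : (outQ f).totalDegree < M)
    (p : Fin 5 → ℕ) (t t' : TPar) (s : ℕ) :
    ((finalW M (fun i => (p i : ℤ)) t t' f s : ℤ) : ℝ) =
      mnorm (2 * M - 1) (gO (fun i => (p i : ℝ)) f)
        (seedPolyS (2 * M - 1) (gO (fun i => (p i : ℝ)) f) t' (nOut n t)
          (fun k => map (Int.castRingHom ℝ) (psiOut (fun i => (p i : ℤ)) t t' f k)) s) := by
  unfold finalW
  have hdeg := gO_totalDegree_lt (fun i => (p i : ℤ)) (f := f) hM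
  have e : (fun i => map (Int.castRingHom ℝ) (gO (fun i => (p i : ℤ)) f i)) =
      gO (fun i => (p i : ℝ)) f := funext fun i => map_gO p f i
  have h := mnorm_map (Int.castRingHom ℝ) hdeg
    (seedPolyS (2 * M - 1) (gO (fun i => (p i : ℤ)) f) t' (nOut n t)
      (psiOut (fun i => (p i : ℤ)) t t' f) s)
  rw [map_seedPolyS (Int.castRingHom ℝ) hdeg, e] at h
  rw [h]
  rfl

theorem eval_psiOut_zero (p : Fin 5 → ℕ) (t t' : TPar) (f : Zxy n) (x : Fin n → ℝ) :
    eval x (map (Int.castRingHom ℝ) (psiOut (fun i => (p i : ℤ)) t t' f 0)) =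
      (t'.T0 : ℝ) * ((p 0 : ℝ) ^ 2 - ∑ i, x i ^ 2) - 1 := by
  simp [psiOut]

theorem eval_psiOut_succ (p : Fin 5 → ℕ) (t t' : TPar) {f : Zxy n} (hf4 : f.totalDegree ≤ 4)
    (x : Fin n → ℝ) (s : ℕ) :
    eval x (map (Int.castRingHom ℝ) (psiOut (fun i => (p i : ℤ)) t t' f (s + 1))) =
      (t'.T0 : ℝ) * innerN (xhom x) (p 1 : ℝ) (p 2 : ℝ) t f s + 1 := by
  have h1 : ∀ P : Zx n, eval x (map (Int.castRingHom ℝ) P) = xhom x P := by
    intro P
    rw [eval_map]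
    rfl
  rw [h1]
  have h2 := map_innerN (xhom x) (RingHom.id (Zx n)) (C (p 1 : ℤ)) (C (p 2 : ℤ)) t hf4 s
  simp only [xhom_C, Int.cast_natCast, RingHom.comp_id] at h2
  simp only [psiOut, Nat.add_eq_zero_iff, one_ne_zero, and_false, if_false, Nat.add_sub_cancel,
    map_add, map_mul, map_natCast, map_one]
  rw [← h2]
  simp only [map_natCast]

/-- **the numeric decision** -/
theorem EE_iff_finalW {f : Zxy n} (hf4 : f.totalDegree ≤ 4)
    (hf0 : ∀ x y : Fin n → ℝ, 0 ≤ ev2 x y f) {M : ℕ} (hM : (outQ f).totalDegree < M)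
    (p : Fin 5 → ℕ) (hpos : ∀ i, 0 < p i) (h4 : p 0 ^ (2 * M - 1) < p 4)
    (hdisc : xhom (fun i => (p i : ℝ)) (outDisc M f) ≠ 0) {t t' : TPar}
    (hOK : t.OK n (mI n) 1) (hOK' : t'.OK n (2 * M - 1) (nOut n t))
    (hR : ∀ x : Fin n → ℝ, msol (2 * M - 1) (gO (fun i => (p i : ℝ)) f) x →
      Robust (mI n) (gI (fun i => (p i : ℝ)) x f) t.K 1 t.T0
        (psiIn (xhom x) (p 1 : ℝ) (p 2 : ℝ) t.T0 f))
    (hR' : Robust (2 * M - 1) (gO (fun i => (p i : ℝ)) f) t'.K (nOut n t) t'.T0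
      (fun k => map (Int.castRingHom ℝ) (psiOut (fun i => (p i : ℤ)) t t' f k))) :
    EE M f (fun i => (p i : ℝ)) ↔
      ∃ s < nSeeds t'.B t'.L ((2 * M - 1) ^ n), finalW M (fun i => (p i : ℤ)) t t' f s < 0 := by
  have hdeg := gO_totalDegree_lt (fun i => (p i : ℝ)) (f := f) hM
  have hsimple : ∀ x, msol (2 * M - 1) (gO (fun i => (p i : ℝ)) f) x →
      eval x (mjac (2 * M - 1) (gO (fun i => (p i : ℝ)) f)) ≠ 0 := by
    intro x hx h0
    apply hdisc
    rw [xhom_outDisc _ hM]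
    exact mnorm_eq_zero_of_msol hdeg hx h0
  have hkey := exists_iff_seed hdeg hR' hOK' (fun x hx _ => hsimple x hx)
  have hcast : ∀ s, finalW M (fun i => (p i : ℤ)) t t' f s < 0 ↔
      mnorm (2 * M - 1) (gO (fun i => (p i : ℝ)) f)
        (seedPolyS (2 * M - 1) (gO (fun i => (p i : ℝ)) f) t' (nOut n t)
          (fun k => map (Int.castRingHom ℝ) (psiOut (fun i => (p i : ℤ)) t t' f k)) s) < 0 := by
    intro s
    rw [← cast_finalW hM p t t' s]
    exact_mod_cast Iff.rfl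
  simp only [hcast]
  rw [← hkey]
  have hT : (0 : ℝ) < t'.T0 := by exact_mod_cast hOK'.hT
  have hp1 : (0 : ℝ) < p 1 := by exact_mod_cast hpos 1
  have hp2 : (0 : ℝ) < p 2 := by exact_mod_cast hpos 2
  unfold EE
  refine exists_congr fun x => and_congr_right fun hx => ?_
  constructor
  · rintro ⟨hb, hH⟩ k hk
    have hrob := (hR'.psi x hx k hk).1
    cases k with
    | zero =>
      rw [eval_psiOut_zero] at hrob ⊢
      have h5 : 0 < (t'.T0 : ℝ) * ((p 0 : ℝ) ^ 2 - ∑ i, x i ^ 2) :=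
        mul_pos hT (by linarith)
      rcases abs_cases ((t'.T0 : ℝ) * ((p 0 : ℝ) ^ 2 - ∑ i, x i ^ 2) - 1) with ⟨h6, _⟩ | ⟨h6, _⟩
      · rw [h6] at hrob; linarith
      · rw [h6] at hrob; linarith
    | succ s =>
      rw [eval_psiOut_succ p t t' hf4]
      have h5 : 0 ≤ innerN (xhom x) (p 1 : ℝ) (p 2 : ℝ) t f s := by
        by_contra hcon
        exact inner_test_sound (p := fun i => (p i : ℝ)) hf4 hOK (hR x hx) (not_le.1 hcon) hH
      have := mul_nonneg hT.le h5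
      linarith
  · intro hall
    have hb : ∑ i, x i ^ 2 < (p 0 : ℝ) ^ 2 := by
      have h0 := hall 0 (by unfold nOut; omega)
      rw [eval_psiOut_zero] at h0
      by_contra hcon
      rw [not_lt] at hcon
      have : (t'.T0 : ℝ) * ((p 0 : ℝ) ^ 2 - ∑ i, x i ^ 2) ≤ 0 :=
        mul_nonpos_of_nonneg_of_nonpos hT.le (by linarith)
      linarith
    refine ⟨hb, ?_⟩
    have hQ : eval x (QO (fun i => (p i : ℝ)) f) ≠ 0 := by
      refine QO_ne_zero_of_ball (by omega : 1 ≤ M) ?_ ?_ hx hb.le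
      · exact_mod_cast hpos 0
      · exact_mod_cast h4
    rw [eval_QO _ x hf4] at hQ
    have hV : innerV (xhom x) (p 1 : ℝ) (p 2 : ℝ) f ≠ 0 := fun h0 => hQ (by
      simp only [h0]; ring)
    have hD : innerD (xhom x) (p 1 : ℝ) (p 2 : ℝ) f ≠ 0 := fun h0 => hQ (by
      simp only [h0]; ring)
    by_contra hcon
    obtain ⟨s, hs, hneg⟩ := inner_test_complete (p := fun i => (p i : ℝ)) hf4 hf0 hp1 hp2 hOK
      (hR x hx) hV hD hcon
    have hk : s + 1 < nOut n t := by unfold nOut; omega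
    have hrob := (hR'.psi x hx (s + 1) hk).1
    have hpos' := hall (s + 1) hk
    rw [eval_psiOut_succ p t t' hf4] at hrob hpos'
    have h5 : (t'.T0 : ℝ) * innerN (xhom x) (p 1 : ℝ) (p 2 : ℝ) t f s < 0 :=
      mul_neg_of_pos_of_neg hT hneg
    rw [abs_of_pos hpos'] at hrob
    linarith

end Crest.Agent.R316
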